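import Mathlib

/-!
# Typed cells of the plane that only tile along one lattice

A cell is a unit square with a hole and a bump in each coordinate direction. The size of a hole
records a type in `ZMod N`, which grows by one along the first direction.
-/

namespace Vale.Agent.P043.R3.Cell

open MeasureTheory Set

/-- The plane. -/
abbrev Pl := ℝ × ℝ

variable {N : ℕ} [NeZero N]

/-- The open square centred at `c` of radius `r`. -/
def sq (c : Pl) (r : ℝ) : Set Pl := Ioo (c.1 - r) (c.1 + r) ×ˢ Ioo (c.2 - r) (c.2 + r)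

/-- The closed square centred at `c` of radius `r`. -/
def csq (c : Pl) (r : ℝ) : Set Pl := Icc (c.1 - r) (c.1 + r) ×ˢ Icc (c.2 - r) (c.2 + r)

/-- The hole radius of a type. -/
noncomputable def rad (j : ZMod N) : ℝ := 1 / 200 + (j.val : ℝ) / (200 * N)

/-- The unit square at `a`. -/
noncomputable def body (a : Pl) : Set Pl := sq (a.1 + 1 / 2, a.2 + 1 / 2) (1 / 2)

/-- The hole in the first direction. -/
noncomputable def hx (a : Pl) (r : ℝ) : Set Pl := sq (a.1 + 1 / 4, a.2 + 3 / 4) r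

/-- The hole in the second direction. -/
noncomputable def hz (a : Pl) (r : ℝ) : Set Pl := sq (a.1 + 3 / 4, a.2 + 1 / 4) r

/-- The cell of type `j` at `a`. -/
noncomputable def cell (p : Pl × ZMod N) : Set Pl :=
  (body p.1 \ (hx p.1 (rad p.2) ∪ hz p.1 (rad p.2))) ∪
    (hx (p.1.1 + 1, p.1.2) (rad (p.2 + 1)) ∪ hz (p.1.1, p.1.2 + 1) (rad p.2))

theorem rad_bounds (j : ZMod N) : 1 / 200 ≤ rad j ∧ rad j ≤ 1 / 100 := by
  have hN : (0 : ℝ) < N := by exact_mod_cast Nat.pos_of_ne_zero (NeZero.ne N)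
  have h : (j.val : ℝ) ≤ N := by exact_mod_cast j.val_lt.le
  have h2 : (j.val : ℝ) / (200 * N) ≤ 1 / 200 := by
    rw [div_le_div_iff₀ (by positivity) (by norm_num)]; linarith
  have h3 : (0 : ℝ) ≤ (j.val : ℝ) / (200 * N) := by positivity
  unfold rad
  constructor <;> linarith

theorem rad_inj : Function.Injective (rad : ZMod N → ℝ) := by
  intro i j h
  have hN : (200 * (N : ℝ)) ≠ 0 :=
    mul_ne_zero (by norm_num) (by exact_mod_cast NeZero.ne N)
  simp only [rad, add_right_inj, div_left_inj' hN, Nat.cast_inj] at h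
  exact ZMod.val_injective N h

theorem mem_sq {c x : Pl} {r : ℝ} : x ∈ sq c r ↔
    (c.1 - r < x.1 ∧ x.1 < c.1 + r) ∧ (c.2 - r < x.2 ∧ x.2 < c.2 + r) := Iff.rfl

theorem isOpen_sq (c : Pl) (r : ℝ) : IsOpen (sq c r) := isOpen_Ioo.prod isOpen_Ioo

theorem isClosed_csq (c : Pl) (r : ℝ) : IsClosed (csq c r) := isClosed_Icc.prod isClosed_Icc

theorem sq_subset_csq (c : Pl) (r : ℝ) : sq c r ⊆ csq c r :=
  prod_mono Ioo_subset_Icc_self Ioo_subset_Icc_self

theorem volume_sq (c : Pl) (r : ℝ) :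
    volume (sq c r) = ENNReal.ofReal (2 * r) * ENNReal.ofReal (2 * r) := by
  rw [sq, Measure.volume_eq_prod, Measure.prod_prod, Real.volume_Ioo, Real.volume_Ioo]
  congr 2 <;> ring

theorem measurableSet_cell (p : Pl × ZMod N) : MeasurableSet (cell p) :=
  ((isOpen_sq _ _).measurableSet.diff ((isOpen_sq _ _).measurableSet.union
    (isOpen_sq _ _).measurableSet)).union
    ((isOpen_sq _ _).measurableSet.union (isOpen_sq _ _).measurableSet)

theorem cell_vadd (p : Pl × ZMod N) (b x : Pl) : x ∈ cell (p.1 + b, p.2) ↔ x - b ∈ cell p := by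
  have e : ∀ (c c' : Pl) (r : ℝ), c' = c + b → (x ∈ sq c' r ↔ x - b ∈ sq c r) := by
    rintro c _ r rfl
    simp only [mem_sq, Prod.fst_add, Prod.snd_add, Prod.fst_sub, Prod.snd_sub]
    constructor <;> intro h <;> obtain ⟨⟨_, _⟩, _, _⟩ := h <;>
      refine ⟨⟨?_, ?_⟩, ?_, ?_⟩ <;> linarith
  simp only [cell, body, hx, hz, mem_union, mem_sdiff]
  refine or_congr (and_congr (e _ _ _ ?_) (not_congr (or_congr (e _ _ _ ?_) (e _ _ _ ?_))))
    (or_congr (e _ _ _ ?_) (e _ _ _ ?_))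
  all_goals
    ext <;> simp only [Prod.fst_add, Prod.snd_add] <;> ring

/-- The translation set of a tiling by cells. -/
structure IsTiling (C : Set (Pl × ZMod N)) : Prop where
  cover : volume (⋃ p ∈ C, cell p)ᶜ = 0
  disj : ∀ p ∈ C, ∀ q ∈ C, p ≠ q → volume (cell p ∩ cell q) = 0

variable {C : Set (Pl × ZMod N)}

theorem eq_of_close (hC : IsTiling C) {p q : Pl × ZMod N} (hp : p ∈ C) (hq : q ∈ C)
    (h1 : |p.1.1 - q.1.1| ≤ 4 / 5) (h2 : |p.1.2 - q.1.2| ≤ 4 / 5) : p = q := by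
  by_contra hne
  rw [abs_le] at h1 h2
  set B : Set Pl := Ioo (max p.1.1 q.1.1) (min p.1.1 q.1.1 + 1) ×ˢ
    Ioo (max p.1.2 q.1.2) (min p.1.2 q.1.2 + 1) with hB
  have hsub : B ⊆ (cell p ∩ cell q) ∪ (((hx p.1 (rad p.2) ∪ hz p.1 (rad p.2))) ∪
      (hx q.1 (rad q.2) ∪ hz q.1 (rad q.2))) := by
    rintro x ⟨⟨a, b⟩, c, e⟩
    rw [max_lt_iff] at a c
    rw [← sub_lt_iff_lt_add, lt_min_iff] at b e
    by_cases u : x ∈ hx p.1 (rad p.2) ∪ hz p.1 (rad p.2)
    · exact Or.inr (Or.inl u)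
    by_cases v : x ∈ hx q.1 (rad q.2) ∪ hz q.1 (rad q.2)
    · exact Or.inr (Or.inr v)
    refine Or.inl ⟨Or.inl ⟨?_, u⟩, Or.inl ⟨?_, v⟩⟩ <;>
    · rw [body, mem_sq]
      simp only
      refine ⟨⟨?_, ?_⟩, ?_, ?_⟩ <;> linarith [a.1, a.2, b.1, b.2, c.1, c.2, e.1, e.2]
  have hlo : ENNReal.ofReal (1 / 5) * ENNReal.ofReal (1 / 5) ≤ volume B := by
    rw [hB, Measure.volume_eq_prod, Measure.prod_prod, Real.volume_Ioo, Real.volume_Ioo]
    refine mul_le_mul' (ENNReal.ofReal_le_ofReal ?_) (ENNReal.ofReal_le_ofReal ?_)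
    · rcases le_total p.1.1 q.1.1 with e | e <;> simp [e] <;> linarith
    · rcases le_total p.1.2 q.1.2 with e | e <;> simp [e] <;> linarith
  have hs : ∀ (c : Pl) (j : ZMod N), volume (sq c (rad j)) ≤ ENNReal.ofReal (1 / 2500) := by
    intro c j
    have := rad_bounds j
    rw [volume_sq, ← ENNReal.ofReal_mul (by linarith)]
    exact ENNReal.ofReal_le_ofReal (by nlinarith)
  have hhi : volume B ≤ ENNReal.ofReal (1 / 2500) + ENNReal.ofReal (1 / 2500)
      + (ENNReal.ofReal (1 / 2500) + ENNReal.ofReal (1 / 2500)) := by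
    refine (measure_mono hsub).trans ((measure_union_le _ _).trans ?_)
    rw [hC.disj p hp q hq hne, zero_add]
    exact (measure_union_le _ _).trans (add_le_add ((measure_union_le _ _).trans (add_le_add (hs _ _) (hs _ _)))
      ((measure_union_le _ _).trans (add_le_add (hs _ _) (hs _ _))))
  have h3 := hlo.trans hhi
  rw [← ENNReal.ofReal_mul (by norm_num), ← ENNReal.ofReal_add (by norm_num) (by norm_num),
    ← ENNReal.ofReal_add (by norm_num) (by norm_num), ENNReal.ofReal_le_ofReal_iff (by norm_num)] at h3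
  norm_num at h3

theorem exists_filler (hC : IsTiling C) {U : Set Pl} (hU : IsOpen U) (hne : U.Nonempty) :
    ∃ q ∈ C, ∃ x ∈ U, x ∈ cell q := by
  by_contra hc
  push Not at hc
  refine (hU.measure_pos volume hne).ne' (measure_mono_null (fun x hx => ?_) hC.cover)
  simp only [mem_compl_iff, mem_iUnion, exists_prop, not_exists, not_and]
  exact fun q hq => hc q hq x hx

theorem sq_ext {c c' : Pl} {r r' : ℝ} (hr : 0 < r) (hr' : 0 < r') (h1 : sq c r ⊆ csq c' r')
    (h2 : sq c' r' ⊆ csq c r) : c = c' ∧ r = r' := by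
  have hcl : ∀ (c : Pl) (r : ℝ), 0 < r → closure (sq c r) = csq c r := by
    intro c r hr
    rw [sq, csq, closure_prod_eq, closure_Ioo (by linarith), closure_Ioo (by linarith)]
  have e1 := closure_minimal h1 (isClosed_csq _ _)
  have e2 := closure_minimal h2 (isClosed_csq _ _)
  rw [hcl c r hr] at e1
  rw [hcl c' r' hr'] at e2
  have a1 := e1 (show ((c.1 - r, c.2 - r) : Pl) ∈ csq c r by
    simp only [csq, mem_prod, mem_Icc]; constructor <;> constructor <;> linarith)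
  have a2 := e1 (show ((c.1 + r, c.2 + r) : Pl) ∈ csq c r by
    simp only [csq, mem_prod, mem_Icc]; constructor <;> constructor <;> linarith)
  have b1 := e2 (show ((c'.1 - r', c'.2 - r') : Pl) ∈ csq c' r' by
    simp only [csq, mem_prod, mem_Icc]; constructor <;> constructor <;> linarith)
  have b2 := e2 (show ((c'.1 + r', c'.2 + r') : Pl) ∈ csq c' r' by
    simp only [csq, mem_prod, mem_Icc]; constructor <;> constructor <;> linarith)
  simp only [csq, mem_prod, mem_Icc] at a1 a2 b1 b2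
  refine ⟨Prod.ext ?_ ?_, ?_⟩ <;>
    linarith [a1.1.1, a2.1.2, b1.1.1, b2.1.2, a1.2.1, a2.2.2, b1.2.1, b2.2.2]

/-- Matching a hole with bumps: `H` is the hole of `p`, `B q` the bump of `q` of the same
direction. -/
theorem hole_match (hC : IsTiling C) {p : Pl × ZMod N} (hp : p ∈ C) (c : Pl)
    (B : Pl × ZMod N → Pl) (R : Pl × ZMod N → ℝ) (r : ℝ) (hr : 1 / 200 ≤ r ∧ r ≤ 1 / 100)
    (hR : ∀ q, 1 / 200 ≤ R q ∧ R q ≤ 1 / 100) (hB : ∀ q, sq (B q) (R q) ⊆ cell q)
    (hfill : ∀ q ∈ C, ∀ x ∈ sq c r, x ∈ cell q → q ≠ p ∧ x ∈ sq (B q) (R q))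
    (hnear : ∀ q q' : Pl × ZMod N, |(B q).1 - (B q').1| ≤ 1 / 20 → |(B q).2 - (B q').2| ≤ 1 / 20 →
      |q.1.1 - q'.1.1| ≤ 4 / 5 ∧ |q.1.2 - q'.1.2| ≤ 4 / 5)
    (hin : ∀ x, (|x.1 - c.1| ≤ 1 / 20 ∧ |x.2 - c.2| ≤ 1 / 20) → x ∉ csq c r → x ∈ cell p) :
    ∃ q ∈ C, B q = c ∧ R q = r := by
  obtain ⟨q, hq, x, hx, hxq⟩ := exists_filler hC (isOpen_sq c r)
    ⟨c, by rw [mem_sq]; constructor <;> constructor <;> linarith⟩
  obtain ⟨hqp, hxB⟩ := hfill q hq x hx hxq
  refine ⟨q, hq, ?_⟩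
  have h1 : sq c r ⊆ csq (B q) (R q) := by
    intro z hz
    by_contra hzB
    obtain ⟨q', hq', z', ⟨hz', hz'B⟩, hzq'⟩ := exists_filler hC
      ((isOpen_sq c r).inter (isClosed_csq (B q) (R q)).isOpen_compl) ⟨z, hz, hzB⟩
    obtain ⟨-, hz'B'⟩ := hfill q' hq' z' hz' hzq'
    rw [mem_sq] at hx hxB hz' hz'B'
    obtain ⟨e1, e2⟩ := hnear q q' (by rw [abs_le]; constructor <;> linarith [hr.2, (hR q).2, (hR q').2,
      hx.1.1, hx.1.2, hxB.1.1, hxB.1.2, hz'.1.1, hz'.1.2, hz'B'.1.1, hz'B'.1.2])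
      (by rw [abs_le]; constructor <;> linarith [hr.2, (hR q).2, (hR q').2,
      hx.2.1, hx.2.2, hxB.2.1, hxB.2.2, hz'.2.1, hz'.2.2, hz'B'.2.1, hz'B'.2.2])
    have := eq_of_close hC hq hq' e1 e2
    subst this
    exact hz'B (sq_subset_csq _ _ ((mem_sq).2 hz'B'))
  have h2 : sq (B q) (R q) ⊆ csq c r := by
    intro z hz
    by_contra hzc
    have hU : IsOpen (sq (B q) (R q) ∩ (csq c r)ᶜ) :=
      (isOpen_sq _ _).inter (isClosed_csq c r).isOpen_compl
    refine (hU.measure_pos volume ⟨z, hz, hzc⟩).ne' (measure_mono_null ?_ (hC.disj q hq p hp hqp))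
    rintro w ⟨hw, hwc⟩
    refine ⟨hB q hw, hin w ?_ hwc⟩
    rw [mem_sq] at hw hx hxB
    rw [abs_le, abs_le]
    constructor <;> constructor <;> linarith [hr.2, (hR q).2, hw.1.1, hw.1.2, hw.2.1, hw.2.2,
      hx.1.1, hx.1.2, hx.2.1, hx.2.2, hxB.1.1, hxB.1.2, hxB.2.1, hxB.2.2]
  exact ⟨((sq_ext (by linarith [hr.1]) (by linarith [(hR q).1]) h1 h2).1).symm,
    ((sq_ext (by linarith [hr.1]) (by linarith [(hR q).1]) h1 h2).2).symm⟩

theorem pred_x (hC : IsTiling C) {a : Pl} {j : ZMod N} (hp : (a, j) ∈ C) :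
    (((a.1 - 1, a.2) : Pl), j - 1) ∈ C := by
  refine (fun h => ?_) (hole_match hC hp (a.1 + 1 / 4, a.2 + 3 / 4)
    (fun q => (q.1.1 + 1 + 1 / 4, q.1.2 + 3 / 4)) (fun q => rad (q.2 + 1)) (rad j) (rad_bounds j)
    (fun q => rad_bounds _) (fun q x hx => Or.inr (Or.inl hx)) (fun q hq x hx hxq => ?_)
    (fun q q' h1 h2 => by
      rw [abs_le] at h1 h2; simp only at h1 h2
      constructor <;> rw [abs_le] <;> constructor <;> linarith [h1.1, h1.2, h2.1, h2.2])
    (fun x hx hxc => ?_))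
  · obtain ⟨q, hq, hB, hR⟩ := h
    obtain ⟨⟨b1, b2⟩, i⟩ := q
    simp only [Prod.mk.injEq] at hB
    have hi : i + 1 = j := rad_inj hR
    rwa [show b1 = a.1 - 1 by linarith [hB.1], show b2 = a.2 by linarith [hB.2],
      show i = j - 1 by rw [← hi]; ring] at hq
  · have hj := rad_bounds j
    rw [mem_sq] at hx
    simp only at hx
    have hne : q ≠ (a, j) := by
      rintro rfl
      rcases hxq with ⟨-, hn⟩ | hb | hb
      · exact hn (Or.inl (mem_sq.2 hx))
      · have := rad_bounds (j + 1)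
        simp only [R3.Cell.hx, mem_sq] at hb
        linarith [hx.1.2, hb.1.1]
      · simp only [hz, mem_sq] at hb
        linarith [hx.1.2, hb.1.1]
    refine ⟨hne, ?_⟩
    rcases hxq with ⟨hb, -⟩ | hb | hb
    · simp only [body, mem_sq] at hb
      exact absurd (eq_of_close hC hq hp (by
        rw [abs_le]; simp only; constructor <;> linarith [hx.1.1, hx.1.2, hb.1.1, hb.1.2]) (by
        rw [abs_le]; simp only; constructor <;> linarith [hx.2.1, hx.2.2, hb.2.1, hb.2.2])) hne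
    · exact hb
    · have := rad_bounds q.2
      simp only [hz, mem_sq] at hb
      exact absurd (eq_of_close hC hq hp (by
        rw [abs_le]; simp only; constructor <;> linarith [hx.1.1, hx.1.2, hb.1.1, hb.1.2]) (by
        rw [abs_le]; simp only; constructor <;> linarith [hx.2.1, hx.2.2, hb.2.1, hb.2.2])) hne
  · rw [abs_le, abs_le] at hx
    simp only at hx
    have hj := rad_bounds j
    refine Or.inl ⟨?_, fun h => h.elim (fun h => hxc (sq_subset_csq _ _ h)) fun h => ?_⟩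
    · simp only [body, mem_sq]
      constructor <;> constructor <;> linarith [hx.1.1, hx.1.2, hx.2.1, hx.2.2]
    · simp only [hz, mem_sq] at h
      linarith [hx.1.2, h.1.1]

theorem pred_z (hC : IsTiling C) {a : Pl} {j : ZMod N} (hp : (a, j) ∈ C) :
    (((a.1, a.2 - 1) : Pl), j) ∈ C := by
  refine (fun h => ?_) (hole_match hC hp (a.1 + 3 / 4, a.2 + 1 / 4)
    (fun q => (q.1.1 + 3 / 4, q.1.2 + 1 + 1 / 4)) (fun q => rad q.2) (rad j) (rad_bounds j)
    (fun q => rad_bounds _) (fun q x hx => Or.inr (Or.inr hx)) (fun q hq x hx hxq => ?_)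
    (fun q q' h1 h2 => by
      rw [abs_le] at h1 h2; simp only at h1 h2
      constructor <;> rw [abs_le] <;> constructor <;> linarith [h1.1, h1.2, h2.1, h2.2])
    (fun x hx hxc => ?_))
  · obtain ⟨q, hq, hB, hR⟩ := h
    obtain ⟨⟨b1, b2⟩, i⟩ := q
    simp only [Prod.mk.injEq] at hB
    rwa [show b1 = a.1 by linarith [hB.1], show b2 = a.2 - 1 by linarith [hB.2],
      show i = j from rad_inj hR] at hq
  · have hj := rad_bounds j
    rw [mem_sq] at hx
    simp only at hx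
    have hne : q ≠ (a, j) := by
      rintro rfl
      rcases hxq with ⟨-, hn⟩ | hb | hb
      · exact hn (Or.inr (mem_sq.2 hx))
      · simp only [R3.Cell.hx, mem_sq] at hb
        have := rad_bounds (j + 1)
        linarith [hx.2.2, hb.2.1]
      · simp only [hz, mem_sq] at hb
        linarith [hx.2.2, hb.2.1]
    refine ⟨hne, ?_⟩
    rcases hxq with ⟨hb, -⟩ | hb | hb
    · simp only [body, mem_sq] at hb
      exact absurd (eq_of_close hC hq hp (by
        rw [abs_le]; simp only; constructor <;> linarith [hx.1.1, hx.1.2, hb.1.1, hb.1.2]) (by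
        rw [abs_le]; simp only; constructor <;> linarith [hx.2.1, hx.2.2, hb.2.1, hb.2.2])) hne
    · have := rad_bounds (q.2 + 1)
      simp only [R3.Cell.hx, mem_sq] at hb
      exact absurd (eq_of_close hC hq hp (by
        rw [abs_le]; simp only; constructor <;> linarith [hx.1.1, hx.1.2, hb.1.1, hb.1.2]) (by
        rw [abs_le]; simp only; constructor <;> linarith [hx.2.1, hx.2.2, hb.2.1, hb.2.2])) hne
    · exact hb
  · rw [abs_le, abs_le] at hx
    simp only at hx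
    have hj := rad_bounds j
    refine Or.inl ⟨?_, fun h => h.elim (fun h => ?_) fun h => hxc (sq_subset_csq _ _ h)⟩
    · simp only [body, mem_sq]
      constructor <;> constructor <;> linarith [hx.1.1, hx.1.2, hx.2.1, hx.2.2]
    · simp only [R3.Cell.hx, mem_sq] at h
      linarith [hx.1.1, h.1.2]

theorem sub_mem (hC : IsTiling C) {a : Pl} {j : ZMod N} (hp : (a, j) ∈ C) (k l : ℕ) :
    (((a.1 - k, a.2 - l) : Pl), j - k) ∈ C := by
  induction k with
  | zero =>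
    induction l with
    | zero => simpa using hp
    | succ l ih => have := pred_z hC ih; push_cast at this ⊢; rwa [← sub_sub]
  | succ k ih => have := pred_x hC ih; push_cast at this ⊢; rwa [← sub_sub, ← sub_sub]

/-- All cells of a tiling lie on one lattice and their types follow the first coordinate. -/
theorem lattice (hC : IsTiling C) {p q : Pl × ZMod N} (hp : p ∈ C) (hq : q ∈ C) :
    ∃ k l : ℤ, q.1 = (p.1.1 + k, p.1.2 + l) ∧ q.2 = p.2 + k := by
  obtain ⟨a, i⟩ := p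
  obtain ⟨b, j⟩ := q
  set k := round (b.1 - a.1)
  set l := round (b.2 - a.2)
  have hk := abs_sub_round (b.1 - a.1)
  have hl := abs_sub_round (b.2 - a.2)
  have ek : ((k.toNat : ℕ) : ℝ) - (((-k).toNat : ℕ) : ℝ) = k := by exact_mod_cast Int.toNat_sub_toNat_neg k
  have el : ((l.toNat : ℕ) : ℝ) - (((-l).toNat : ℕ) : ℝ) = l := by exact_mod_cast Int.toNat_sub_toNat_neg l
  have hm := eq_of_close hC (sub_mem hC hq k.toNat l.toNat) (sub_mem hC hp (-k).toNat (-l).toNat)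
    (by rw [abs_le] at hk ⊢; simp only; constructor <;> linarith [hk.1, hk.2, ek])
    (by rw [abs_le] at hl ⊢; simp only; constructor <;> linarith [hl.1, hl.2, el])
  simp only [Prod.mk.injEq] at hm
  refine ⟨k, l, Prod.ext (by simp only; linarith [hm.1.1]) (by simp only; linarith [hm.1.2]), ?_⟩
  have ez : ((k.toNat : ℕ) : ℤ) - (((-k).toNat : ℕ) : ℤ) = k := Int.toNat_sub_toNat_neg k
  show j = i + (k : ZMod N)
  rw [← ez]
  push_cast
  linear_combination hm.2

/-- The lattice points. -/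
def lat (u : ℤ × ℤ) : Pl × ZMod N := (((u.1 : ℝ), (u.2 : ℝ)), (u.1 : ZMod N))

/-- The points with an integer coordinate. -/
def grid : Set Pl := {x | (∃ m : ℤ, x.1 = m) ∨ ∃ m : ℤ, x.2 = m}

theorem volume_grid : volume grid = 0 := by
  have : grid ⊆ (range (Int.cast : ℤ → ℝ)) ×ˢ univ ∪ univ ×ˢ (range (Int.cast : ℤ → ℝ)) := by
    rintro x (⟨m, h⟩ | ⟨m, h⟩)
    · exact Or.inl ⟨⟨m, h.symm⟩, trivial⟩
    · exact Or.inr ⟨trivial, ⟨m, h.symm⟩⟩
  refine measure_mono_null this (measure_union_null ?_ ?_) <;>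
    rw [Measure.volume_eq_prod, Measure.prod_prod,
      (countable_range (Int.cast : ℤ → ℝ)).measure_zero volume] <;> simp

theorem existsUnique_cell {x : Pl} (hx : x ∉ grid) :
    ∃! u : ℤ × ℤ, x ∈ cell (N := N) (lat u) := by
  set f : ℤ × ℤ := (⌊x.1⌋, ⌊x.2⌋) with hf
  have hbody : ∀ u : ℤ × ℤ, x ∈ body ((u.1 : ℝ), (u.2 : ℝ)) ↔ u = f := by
    intro u
    rw [body, mem_sq]
    constructor
    · rintro ⟨⟨a, b⟩, c, e⟩
      simp only at a b c e
      exact Prod.ext (Int.floor_eq_iff.2 ⟨by linarith, by linarith⟩).symm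
        (Int.floor_eq_iff.2 ⟨by linarith, by linarith⟩).symm
    · rintro rfl
      have h1 := Int.floor_le x.1; have h2 := Int.lt_floor_add_one x.1
      have h3 := Int.floor_le x.2; have h4 := Int.lt_floor_add_one x.2
      have e1 : (⌊x.1⌋ : ℝ) ≠ x.1 := fun e => hx (Or.inl ⟨_, e.symm⟩)
      have e2 : (⌊x.2⌋ : ℝ) ≠ x.2 := fun e => hx (Or.inr ⟨_, e.symm⟩)
      simp only [hf]
      refine ⟨⟨?_, ?_⟩, ?_, ?_⟩ <;>
        linarith [lt_of_le_of_ne h1 e1, lt_of_le_of_ne h3 e2]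
  have hsubx : ∀ (a : Pl) (j : ZMod N), R3.Cell.hx a (rad j) ⊆ body a := by
    intro a j z hz
    have := rad_bounds j
    simp only [R3.Cell.hx, body, mem_sq] at hz ⊢
    constructor <;> constructor <;> linarith [hz.1.1, hz.1.2, hz.2.1, hz.2.2]
  have hsubz : ∀ (a : Pl) (j : ZMod N), hz a (rad j) ⊆ body a := by
    intro a j z hz
    have := rad_bounds j
    simp only [R3.Cell.hz, body, mem_sq] at hz ⊢
    constructor <;> constructor <;> linarith [hz.1.1, hz.1.2, hz.2.1, hz.2.2]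
  have hbx : ∀ u : ℤ × ℤ, x ∈ R3.Cell.hx (((u.1 : ℝ) + 1, (u.2 : ℝ))) (rad ((u.1 : ZMod N) + 1)) ↔
      u = (f.1 - 1, f.2) ∧ x ∈ R3.Cell.hx ((f.1 : ℝ), (f.2 : ℝ)) (rad (f.1 : ZMod N)) := by
    intro u
    constructor
    · intro h
      have e := (hbody (u.1 + 1, u.2)).1 (by push_cast; exact hsubx _ _ h)
      rw [← e]
      refine ⟨by simp, ?_⟩
      push_cast
      exact h
    · rintro ⟨rfl, h⟩
      push_cast
      simpa using h
  have hbz : ∀ u : ℤ × ℤ, x ∈ hz (((u.1 : ℝ), (u.2 : ℝ) + 1)) (rad (u.1 : ZMod N)) ↔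
      u = (f.1, f.2 - 1) ∧ x ∈ hz ((f.1 : ℝ), (f.2 : ℝ)) (rad (f.1 : ZMod N)) := by
    intro u
    constructor
    · intro h
      have e := (hbody (u.1, u.2 + 1)).1 (by push_cast; exact hsubz _ _ h)
      rw [← e]
      refine ⟨by simp, ?_⟩
      push_cast
      exact h
    · rintro ⟨rfl, h⟩
      push_cast
      simpa using h
  have hdisj : ¬ (x ∈ R3.Cell.hx ((f.1 : ℝ), (f.2 : ℝ)) (rad (f.1 : ZMod N)) ∧
      x ∈ hz ((f.1 : ℝ), (f.2 : ℝ)) (rad (f.1 : ZMod N))) := by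
    rintro ⟨h1, h2⟩
    have := rad_bounds (f.1 : ZMod N)
    simp only [R3.Cell.hx, hz, mem_sq] at h1 h2
    linarith [h1.1.2, h2.1.1]
  have hmem : ∀ u : ℤ × ℤ, x ∈ cell (N := N) (lat u) ↔
      (u = f ∧ x ∉ R3.Cell.hx ((f.1 : ℝ), (f.2 : ℝ)) (rad (f.1 : ZMod N))
        ∧ x ∉ hz ((f.1 : ℝ), (f.2 : ℝ)) (rad (f.1 : ZMod N))) ∨
      (u = (f.1 - 1, f.2) ∧ x ∈ R3.Cell.hx ((f.1 : ℝ), (f.2 : ℝ)) (rad (f.1 : ZMod N))) ∨
      (u = (f.1, f.2 - 1) ∧ x ∈ hz ((f.1 : ℝ), (f.2 : ℝ)) (rad (f.1 : ZMod N))) := by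
    intro u
    simp only [cell, lat, mem_union, mem_sdiff, hbody, hbx, hbz, not_or]
    refine or_congr_left ⟨?_, ?_⟩
    · rintro ⟨rfl, h⟩; exact ⟨rfl, h⟩
    · rintro ⟨rfl, h⟩; exact ⟨rfl, h⟩
  by_cases h1 : x ∈ R3.Cell.hx ((f.1 : ℝ), (f.2 : ℝ)) (rad (f.1 : ZMod N))
  · refine ⟨(f.1 - 1, f.2), (hmem _).2 (Or.inr (Or.inl ⟨rfl, h1⟩)), fun u hu => ?_⟩
    rcases (hmem u).1 hu with ⟨-, h, -⟩ | ⟨h, -⟩ | ⟨-, h⟩
    · exact absurd h1 h
    · exact h
    · exact absurd ⟨h1, h⟩ hdisj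
  by_cases h2 : x ∈ hz ((f.1 : ℝ), (f.2 : ℝ)) (rad (f.1 : ZMod N))
  · refine ⟨(f.1, f.2 - 1), (hmem _).2 (Or.inr (Or.inr ⟨rfl, h2⟩)), fun u hu => ?_⟩
    rcases (hmem u).1 hu with ⟨-, -, h⟩ | ⟨-, h⟩ | ⟨h, -⟩
    · exact absurd h2 h
    · exact absurd h h1
    · exact h
  refine ⟨f, (hmem _).2 (Or.inl ⟨rfl, h1, h2⟩), fun u hu => ?_⟩
  rcases (hmem u).1 hu with ⟨h, -⟩ | ⟨-, h⟩ | ⟨-, h⟩
  · exact h
  · exact absurd h h1
  · exact absurd h h2

theorem cell_nonempty_open (p : Pl × ZMod N) : 0 < volume (cell p) := by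
  refine lt_of_lt_of_le ((isOpen_sq _ _).measure_pos volume ?_)
    (measure_mono fun x hx => (Or.inr (Or.inr hx) : x ∈ cell p))
  have := rad_bounds p.2
  exact ⟨(p.1.1 + 3 / 4, p.1.2 + 1 + 1 / 4), by rw [mem_sq]; constructor <;> constructor <;> simp only <;> linarith⟩

end Vale.Agent.P043.R3.Cell
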