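import Vale.Agent.P043.R3.NoPer
import Vale.Agent.P043.R3.Cell

/-!
# The tile of `ℝ³`

The equations are interleaved along the first coordinate and every site is thickened by a typed
cell in the first and third coordinates.
-/

namespace Vale.Agent.P043.R3

open MeasureTheory Set

/-- The number of layers. -/
abbrev NL : ℕ := 126

/-- The piece moved vertically by `k` half steps. -/
def shiftP (k : ℤ) (p : Piece) : Piece := (p.1, p.2.1, (p.2.2.1.1 + 4 * k, p.2.2.1.2), p.2.2.2)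

/-- The layers: the five equations and vertical translates of the first one. -/
def layer (j : Fin NL) : Finset Piece :=
  if j.val = 0 then gad 2
  else if j.val = 1 then gad 3
  else if j.val = 2 then hal
  else if j.val = 3 then mov 4 0
  else if j.val = 4 then mov 0 2
  else (gad 2).image (shiftP ((j.val : ℤ) - 65))

theorem good_layer_site {E : Finset Piece}
    (h : E = gad 2 ∨ E = gad 3 ∨ E = hal ∨ E = mov 4 0 ∨ E = mov 0 2) :
    ∀ p ∈ E, ∀ q ∈ E, p.1 = q.1 → p.2.1 = q.2.1 → p = q := by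
  rcases h with rfl | rfl | rfl | rfl | rfl <;> decide +kernel

theorem layer_site (j : Fin NL) :
    ∀ p ∈ layer j, ∀ q ∈ layer j, p.1 = q.1 → p.2.1 = q.2.1 → p = q := by
  unfold layer
  split_ifs
  · exact good_layer_site (Or.inl rfl)
  · exact good_layer_site (Or.inr (Or.inl rfl))
  · exact good_layer_site (Or.inr (Or.inr (Or.inl rfl)))
  · exact good_layer_site (Or.inr (Or.inr (Or.inr (Or.inl rfl))))
  · exact good_layer_site (Or.inr (Or.inr (Or.inr (Or.inr rfl))))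
  simp only [Finset.mem_image]
  rintro _ ⟨p, hp, rfl⟩ _ ⟨q, hq, rfl⟩ h1 h2
  rw [good_layer_site (Or.inl rfl) p hp q hq h1 h2]

theorem tiles_layer (j : Fin NL) (n m : ℤ) (y : ℝ) :
    ∃! w : Pt × Piece, w.1 ∈ A0 ∧ w.2 ∈ layer j ∧ Covers w.1 w.2 n m y := by
  unfold layer
  split_ifs
  · exact tilesSys_A0 good_gad2 n m y
  · exact tilesSys_A0 good_gad3 n m y
  · exact tilesSys_A0 good_hal n m y
  · exact tilesSys_A0 good_movz n m y
  · exact tilesSys_A0 good_movy n m y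
  · set k : ℤ := (j.val : ℤ) - 65
    have hk : ∀ (a : Pt) (p : Piece),
        Covers a (shiftP k p) n m y ↔ Covers a p n m (y - (k : ℝ) * dd / 2) := by
      intro a p
      simp only [Covers, shiftP, sv]
      push_cast
      rw [show y - a.2.2 - ((↑p.2.2.1.1 + 4 * (k : ℝ)) * dd / 8 + ↑p.2.2.1.2 / 2)
        = y - k * dd / 2 - a.2.2 - (↑p.2.2.1.1 * dd / 8 + ↑p.2.2.1.2 / 2) by ring]
    obtain ⟨⟨a, p⟩, ⟨ha, hp, hc⟩, hu⟩ := tilesSys_A0 good_gad2 n m (y - (k : ℝ) * dd / 2)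
    refine ⟨(a, shiftP k p), ⟨ha, Finset.mem_image_of_mem _ hp, (hk a p).2 hc⟩, ?_⟩
    rintro ⟨b, q⟩ ⟨hb, hq, hc'⟩
    obtain ⟨q₀, hq₀, rfl⟩ := Finset.mem_image.1 hq
    have := hu (b, q₀) ⟨hb, hq₀, (hk b q₀).1 hc'⟩
    simp only [Prod.mk.injEq] at this
    rw [this.1, this.2]

/-- The lattice index of a piece of a layer. -/
def idx (j : Fin NL) (n m : ℤ) : ℤ × ℤ := ((NL : ℤ) * n + j.val, m)

theorem idx_inj {j j' : Fin NL} {n m n' m' : ℤ} (h : idx j n m = idx j' n' m') :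
    j = j' ∧ n = n' ∧ m = m' := by
  simp only [idx, Prod.mk.injEq] at h
  have := j.2; have := j'.2
  refine ⟨Fin.ext ?_, ?_, h.2⟩ <;> simp only [NL] at * <;> omega

theorem idx_surj (u : ℤ × ℤ) : ∃ j n m, idx j n m = u := by
  refine ⟨⟨(u.1 % (NL : ℤ)).toNat, by simp only [NL]; omega⟩, u.1 / (NL : ℤ), u.2, ?_⟩
  simp only [idx, NL, Prod.ext_iff, and_true]
  omega

/-- The typed point of a piece of the translate by `a`. -/
noncomputable def pc (a : Fin 3 → ℝ) (j : Fin NL) (p : Piece) : Cell.Pl × ZMod NL :=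
  ((Cell.lat (N := NL) (idx j p.1 p.2.1)).1 + (a 0, a 2), (Cell.lat (N := NL) (idx j p.1 p.2.1)).2)

/-- The slices of the translate by `a` of the tile. -/
def TT (a : Fin 3 → ℝ) : Set (ℝ × Cell.Pl) :=
  {w | ∃ j, ∃ p ∈ layer j, w.1 - a 1 - sv p.2.2.1 ∈ Ico 0 (sv p.2.2.2) ∧ w.2 ∈ Cell.cell (pc a j p)}

/-- The vertical coordinate and the planar ones. -/
def split3 (v : Fin 3 → ℝ) : ℝ × Cell.Pl := (v 1, (v 0, v 2))

/-- The tile. -/
def tile : Set (Fin 3 → ℝ) := split3 ⁻¹' TT 0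

theorem mp_split : MeasurePreserving split3 volume volume := by
  have h1 := volume_preserving_piFinSuccAbove (fun _ : Fin 3 => ℝ) 1
  have h2 : MeasurePreserving (Prod.map (id : ℝ → ℝ) (MeasurableEquiv.finTwoArrow (α := ℝ)))
      volume volume :=
    (MeasurePreserving.id (volume : Measure ℝ)).prod (volume_preserving_finTwoArrow ℝ)
  have e : split3 = Prod.map (id : ℝ → ℝ) (MeasurableEquiv.finTwoArrow (α := ℝ)) ∘
      MeasurableEquiv.piFinSuccAbove (fun _ : Fin 3 => ℝ) 1 := by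
    funext v; rfl
  rw [e]
  exact h2.comp h1

theorem measurableSet_TT (a : Fin 3 → ℝ) : MeasurableSet (TT a) := by
  have e : TT a = ⋃ j, ⋃ p ∈ layer j,
      ((fun y : ℝ => y - a 1 - sv p.2.2.1) ⁻¹' Ico 0 (sv p.2.2.2)) ×ˢ Cell.cell (pc a j p) := by
    ext w
    simp only [TT, mem_iUnion, mem_prod, mem_preimage, mem_ofPred_eq, exists_prop]
  rw [e]
  exact MeasurableSet.iUnion fun j => Finset.measurableSet_biUnion _ fun p _ =>
    (((measurable_id.sub_const _).sub_const _) measurableSet_Ico).prod (Cell.measurableSet_cell _)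

theorem image_tile (a : Fin 3 → ℝ) : (fun x => a + x) '' tile = split3 ⁻¹' TT a := by
  rw [image_add_left]
  ext v
  simp only [tile, mem_preimage, TT, mem_ofPred_eq, split3]
  refine exists_congr fun j => exists_congr fun p => and_congr_right fun _ => and_congr ?_ ?_
  · simp only [Pi.add_apply, Pi.neg_apply, Pi.zero_apply, sub_zero]
    rw [show -a 1 + v 1 = v 1 - a 1 by ring]
  · simp only [pc, Pi.add_apply, Pi.neg_apply, Pi.zero_apply]
    rw [Cell.cell_vadd ((Cell.lat (N := NL) (idx j p.1 p.2.1)).1, _),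
      Cell.cell_vadd ((Cell.lat (N := NL) (idx j p.1 p.2.1)).1, _)]
    simp only [Prod.mk.eta, Prod.mk_zero_zero, sub_zero]
    rw [show ((-a 0 + v 0, -a 2 + v 2) : Cell.Pl) = (v 0, v 2) - (a 0, a 2) by
      simp [neg_add_eq_sub]]

theorem sv_pos_of_mem {j : Fin NL} {p : Piece} (hp : p ∈ layer j) : 0 < sv p.2.2.2 := by
  unfold layer at hp
  split_ifs at hp
  · exact (sv_len (good_gad2.1 p hp)).1
  · exact (sv_len (good_gad3.1 p hp)).1
  · exact (sv_len (good_hal.1 p hp)).1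
  · exact (sv_len (good_movz.1 p hp)).1
  · exact (sv_len (good_movy.1 p hp)).1
  · obtain ⟨q, hq, rfl⟩ := Finset.mem_image.1 hp
    exact (sv_len (good_gad2.1 q hq)).1

theorem first_piece : gp 2 (0, 0) ∈ layer (0 : Fin NL) := by
  simp [layer, gad]

theorem volume_TT_pos (a : Fin 3 → ℝ) : 0 < volume (TT a) := by
  set p := gp 2 (0, 0)
  refine lt_of_lt_of_le ?_ (measure_mono (s := Ioo (a 1 + sv p.2.2.1) (a 1 + sv p.2.2.1 + sv p.2.2.2)
    ×ˢ Cell.cell (pc a 0 p)) fun w hw => ⟨0, p, first_piece, ?_, hw.2⟩)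
  · rw [Measure.volume_eq_prod, Measure.prod_prod]
    refine ENNReal.mul_pos ?_ (Cell.cell_nonempty_open _).ne'
    rw [Real.volume_Ioo, ne_eq, ENNReal.ofReal_eq_zero, not_le]
    linarith [sv_pos_of_mem first_piece]
  · constructor <;> linarith [hw.1.1, hw.1.2]

theorem isBounded_cell (c : Cell.Pl × ZMod NL) : Bornology.IsBounded (Cell.cell c) := by
  simp only [Cell.cell, Cell.body, Cell.hx, Cell.hz, Cell.sq]
  exact ((((Metric.isBounded_Ioo _ _).prod (Metric.isBounded_Ioo _ _)).subset sdiff_subset)).union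
    (((Metric.isBounded_Ioo _ _).prod (Metric.isBounded_Ioo _ _)).union
      ((Metric.isBounded_Ioo _ _).prod (Metric.isBounded_Ioo _ _)))

theorem isBounded_tile : Bornology.IsBounded tile := by
  have hT : Bornology.IsBounded (TT 0) := by
    have e : TT 0 ⊆ ⋃ j, ⋃ p ∈ (layer j : Finset Piece),
        Icc (sv p.2.2.1) (sv p.2.2.1 + sv p.2.2.2) ×ˢ Cell.cell (pc 0 j p) := by
      rintro w ⟨j, p, hp, hI, hc⟩
      simp only [Pi.zero_apply, sub_zero, mem_Ico] at hI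
      exact mem_iUnion.2 ⟨j, mem_iUnion₂.2 ⟨p, hp, ⟨by linarith [hI.1], by linarith [hI.2]⟩, hc⟩⟩
    exact (Bornology.isBounded_iUnion.2 fun j => (Bornology.isBounded_biUnion_finset _).2 fun p _ =>
      (Metric.isBounded_Icc _ _).prod (isBounded_cell _)).subset e
  obtain ⟨R, hR⟩ := hT.exists_norm_le
  refine (Metric.isBounded_closedBall (x := (0 : Fin 3 → ℝ)) (r := max R 0)).subset fun v hv => ?_
  rw [mem_closedBall_zero_iff, pi_norm_le_iff_of_nonneg (le_max_right _ _)]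
  have h := hR _ hv
  simp only [split3, Prod.norm_def] at h
  intro i
  refine le_trans ?_ ((le_max_left R 0).trans' h)
  fin_cases i <;> simp

/-- The lattice translate of a point of `ℤ × ℤ × ℝ`. -/
def emb (t0 t2 : ℝ) (b : Pt) : Fin 3 → ℝ :=
  ![t0 + (NL : ℝ) * b.1, b.2.2, t2 + (b.2.1 : ℝ)]

theorem pc_emb (t0 t2 : ℝ) (b : Pt) (j : Fin NL) (p : Piece) :
    pc (emb t0 t2 b) j p =
      ((Cell.lat (N := NL) (idx j (b.1 + p.1) (b.2.1 + p.2.1))).1 + (t0, t2),
        (Cell.lat (N := NL) (idx j (b.1 + p.1) (b.2.1 + p.2.1))).2) := by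
  refine Prod.ext ?_ ?_
  · simp only [pc, Cell.lat, idx, emb]
    ext <;> simp <;> ring
  · simp only [pc, Cell.lat, idx]
    push_cast
    simp [show (126 : ZMod NL) = 0 from ZMod.natCast_self NL]

theorem tile_tiles : ∃ A : Set (Fin 3 → ℝ), volume (⋃ a ∈ A, (fun x => a + x) '' tile)ᶜ = 0 ∧
    ∀ a ∈ A, ∀ b ∈ A, a ≠ b → volume ((fun x => a + x) '' tile ∩ (fun x => b + x) '' tile) = 0 := by
  have hnull : volume (split3 ⁻¹' (univ ×ˢ Cell.grid)) = 0 := by
    rw [mp_split.measure_preimage ((MeasurableSet.univ.nullMeasurableSet).prod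
      (NullMeasurableSet.of_null Cell.volume_grid)),
      Measure.volume_eq_prod, Measure.prod_prod, Cell.volume_grid, mul_zero]
  refine ⟨emb 0 0 '' A0, ?_, ?_⟩
  · refine measure_mono_null (fun v hv => ?_) hnull
    by_contra hg
    simp only [mem_preimage, mem_prod, mem_univ, true_and] at hg
    refine hv ?_
    obtain ⟨u, hu, -⟩ := Cell.existsUnique_cell (N := NL) hg
    obtain ⟨j, n, m, rfl⟩ := idx_surj u
    obtain ⟨⟨b, p⟩, ⟨hb, hp, e1, e2, hI⟩, -⟩ := tiles_layer j n m (v 1)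
    refine mem_iUnion₂.2 ⟨emb 0 0 b, ⟨b, hb, rfl⟩, ?_⟩
    rw [image_tile]
    refine ⟨j, p, hp, by simpa [split3, emb] using hI, ?_⟩
    rw [pc_emb, e1, e2, Prod.mk_zero_zero, add_zero]
    exact hu
  · rintro _ ⟨b, hb, rfl⟩ _ ⟨b', hb', rfl⟩ hne
    rw [image_tile, image_tile]
    refine measure_mono_null (fun v hv => ?_) hnull
    by_contra hg
    simp only [mem_preimage, mem_prod, mem_univ, true_and] at hg
    obtain ⟨⟨j, p, hp, hI, hc⟩, j', p', hp', hI', hc'⟩ := hv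
    rw [pc_emb, Prod.mk_zero_zero, add_zero] at hc hc'
    obtain ⟨u, -, hu⟩ := Cell.existsUnique_cell (N := NL) hg
    obtain ⟨rfl, e1, e2⟩ := idx_inj ((hu _ hc).trans (hu _ hc').symm)
    have := (tiles_layer j _ _ (v 1)).unique (y₁ := (b, p)) (y₂ := (b', p'))
      ⟨hb, hp, rfl, rfl, by simpa [split3, emb] using hI⟩
      ⟨hb', hp', e1.symm, e2.symm, by simpa [split3, emb] using hI'⟩
    simp only [Prod.mk.injEq] at this
    exact hne (by rw [this.1])

/-- The cells present at height `y`. -/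
def sect (A : Set (Fin 3 → ℝ)) (y : ℝ) : Set (Cell.Pl × ZMod NL) :=
  {c | ∃ a ∈ A, ∃ j, ∃ p ∈ layer j, y - a 1 - sv p.2.2.1 ∈ Ico 0 (sv p.2.2.2) ∧ c = pc a j p}

/-- Heights at which the slices of the translates form a partition. -/
def GoodY (A : Set (Fin 3 → ℝ)) (y : ℝ) : Prop :=
  ∀ᵐ x : Cell.Pl, ∃! a, a ∈ A ∧ (y, x) ∈ TT a

theorem null_translate (b : Cell.Pl) {S : Set Cell.Pl} (h : volume S = 0) :
    volume ((fun x => x - b) ⁻¹' S) = 0 := by
  rw [(measurePreserving_sub_right volume b).measure_preimage (NullMeasurableSet.of_null h), h]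

theorem goodY_ae {A : Set (Fin 3 → ℝ)} (hcov : volume (⋃ a ∈ A, (fun x => a + x) '' tile)ᶜ = 0)
    (hdisj : ∀ a ∈ A, ∀ b ∈ A, a ≠ b →
      volume ((fun x => a + x) '' tile ∩ (fun x => b + x) '' tile) = 0) :
    ∀ᵐ y : ℝ, GoodY A y := by
  simp only [image_tile] at hcov hdisj
  have hpair : ∀ a ∈ A, ∀ b ∈ A, a ≠ b → volume (TT a ∩ TT b) = 0 := by
    intro a ha b hb hne
    rw [← mp_split.measure_preimage ((measurableSet_TT a).inter (measurableSet_TT b)).nullMeasurableSet]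
    exact hdisj a ha b hb hne
  have hcount : A.Countable := by
    have h := Measure.countable_meas_pos_of_disjoint_iUnion₀ (μ := (volume : Measure (ℝ × Cell.Pl)))
      (As := fun a : A => TT a.1) (fun a => (measurableSet_TT _).nullMeasurableSet)
      (fun a b hab => hpair a.1 a.2 b.1 b.2 fun e => hab (Subtype.ext e))
    have e : {a : A | 0 < volume (TT a.1)} = univ := eq_univ_of_forall fun a => volume_TT_pos a.1
    rw [e, countable_univ_iff] at h
    exact Set.countable_coe_iff.1 h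
  have hU : volume (⋃ a ∈ A, TT a)ᶜ = 0 := by
    have hm : MeasurableSet (⋃ a ∈ A, TT a) :=
      MeasurableSet.biUnion hcount fun a _ => measurableSet_TT a
    rw [← mp_split.measure_preimage hm.compl.nullMeasurableSet, preimage_compl]
    simpa only [preimage_iUnion] using hcov
  refine Measure.ae_ae_of_ae_prod (p := fun w => ∃! a, a ∈ A ∧ w ∈ TT a) ?_
  rw [← Measure.volume_eq_prod]
  have h1 : ∀ᵐ w : ℝ × Cell.Pl, ∀ a ∈ A, ∀ b ∈ A, a ≠ b → ¬ (w ∈ TT a ∧ w ∈ TT b) := by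
    refine (ae_ball_iff hcount).2 fun a ha => (ae_ball_iff hcount).2 fun b hb => ?_
    by_cases e : a = b
    · exact Filter.Eventually.of_forall fun w h => absurd e h
    · filter_upwards [measure_eq_zero_iff_ae_notMem.1 (hpair a ha b hb e)] with w hw _ using hw
  filter_upwards [h1, measure_eq_zero_iff_ae_notMem.1 hU] with w hw hw'
  rw [mem_compl_iff, not_not] at hw'
  obtain ⟨a, ha, haw⟩ := mem_iUnion₂.1 hw'
  exact ⟨a, ⟨ha, haw⟩, fun b ⟨hb, hbw⟩ => by_contra fun hne => hw b hb a ha hne ⟨hbw, haw⟩⟩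

variable {A : Set (Fin 3 → ℝ)} {y : ℝ}

theorem pc_unique (hy : GoodY A y) {a b : Fin 3 → ℝ} (ha : a ∈ A) (hb : b ∈ A) {j i : Fin NL}
    {p q : Piece} (hp : p ∈ layer j) (hq : q ∈ layer i)
    (hIa : y - a 1 - sv p.2.2.1 ∈ Ico 0 (sv p.2.2.2))
    (hIb : y - b 1 - sv q.2.2.1 ∈ Ico 0 (sv q.2.2.2)) (hne : a ≠ b) :
    volume (Cell.cell (pc a j p) ∩ Cell.cell (pc b i q)) = 0 :=
  measure_mono_null (fun x hx (hu : ∃! c, c ∈ A ∧ (y, x) ∈ TT c) =>
    hne (hu.unique ⟨ha, j, p, hp, hIa, hx.1⟩ ⟨hb, i, q, hq, hIb, hx.2⟩)) (ae_iff.1 hy)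

theorem sect_tiling (hy : GoodY A y) : Cell.IsTiling (sect A y) := by
  have hy' : volume {x : Cell.Pl | ¬ ∃! c, c ∈ A ∧ (y, x) ∈ TT c} = 0 := ae_iff.1 hy
  refine ⟨measure_mono_null ?_ hy', ?_⟩
  · intro x hx hu
    refine hx ?_
    obtain ⟨a, ha, j, p, hp, hI, hc⟩ := (hu : ∃! c, c ∈ A ∧ (y, x) ∈ TT c).exists
    exact mem_iUnion₂.2 ⟨pc a j p, ⟨a, ha, j, p, hp, hI, rfl⟩, hc⟩
  · rintro _ ⟨a, ha, j, p, hp, hI, rfl⟩ _ ⟨b, hb, i, q, hq, hI', rfl⟩ hne
    by_cases hab : a = b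
    · subst hab
      refine measure_mono_null (fun x hx => ?_) (null_translate (a 0, a 2) Cell.volume_grid)
      by_contra hg
      simp only [pc, mem_inter_iff] at hx
      rw [Cell.cell_vadd (Cell.lat (idx j p.1 p.2.1)), Cell.cell_vadd (Cell.lat (idx i q.1 q.2.1))] at hx
      obtain ⟨u, -, hu⟩ := Cell.existsUnique_cell (N := NL) hg
      exact hne (by rw [pc, pc, (hu _ hx.1).trans (hu _ hx.2).symm])
    · exact pc_unique hy ha hb hp hq hI hI' hab

/-- Two translates on one lattice of the right step. -/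
def Rel (a b : Fin 3 → ℝ) : Prop := ∃ n m : ℤ, b 0 = a 0 + (NL : ℝ) * n ∧ b 2 = a 2 + (m : ℝ)

theorem Rel.trans {a b c : Fin 3 → ℝ} (h : Rel a b) (h' : Rel b c) : Rel a c := by
  obtain ⟨n, m, e1, e2⟩ := h
  obtain ⟨n', m', e3, e4⟩ := h'
  exact ⟨n + n', m + m', by rw [e3, e1]; push_cast; ring, by rw [e4, e2]; push_cast; ring⟩

theorem Rel.symm {a b : Fin 3 → ℝ} (h : Rel a b) : Rel b a := by
  obtain ⟨n, m, e1, e2⟩ := h
  exact ⟨-n, -m, by rw [e1]; push_cast; ring, by rw [e2]; push_cast; ring⟩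

theorem rel_of_sect (hy : GoodY A y) {a b : Fin 3 → ℝ} {c c' : Cell.Pl × ZMod NL}
    (hc : c ∈ sect A y) (hc' : c' ∈ sect A y) {j i : Fin NL} {p q : Piece}
    (e : c = pc a j p) (e' : c' = pc b i q) : Rel a b := by
  obtain ⟨k, l, h1, h2⟩ := Cell.lattice (sect_tiling hy) hc hc'
  subst e e'
  simp only [pc, Cell.lat, idx, Prod.mk_add_mk, Prod.mk.injEq] at h1 h2
  obtain ⟨t, ht⟩ : ((NL : ℤ)) ∣ (((NL : ℤ) * p.1 + j.val + k) - ((NL : ℤ) * q.1 + i.val)) := by
    rw [← ZMod.intCast_zmod_eq_zero_iff_dvd]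
    push_cast at h2 ⊢
    rw [h2]; ring
  refine ⟨t, p.2.1 - q.2.1 + l, ?_, ?_⟩
  · have ht' := congrArg (fun z : ℤ => (z : ℝ)) ht
    simp only [NL] at ht' h1 ⊢
    push_cast at ht' h1 ⊢
    linarith [h1.1]
  · have := h1.2
    push_cast at this ⊢
    linarith

theorem alive {a : Fin 3 → ℝ} (h : |y - a 1| ≤ 4) :
    ∃ j, ∃ p ∈ layer j, y - a 1 - sv p.2.2.1 ∈ Ico 0 (sv p.2.2.2) := by
  rw [abs_le] at h
  have hd := dd_pos
  have hd' : 7 / 50 ≤ dd := by
    have : (7 : ℝ) / 5 ≤ Real.sqrt 2 := Real.le_sqrt_of_sq_le (by norm_num)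
    unfold dd; linarith
  set k := ⌊(y - a 1) / (dd / 2)⌋ with hk
  have h1 : (k : ℝ) * (dd / 2) ≤ y - a 1 := (le_div_iff₀ (by linarith)).1 (Int.floor_le _)
  have h2 : y - a 1 < ((k : ℝ) + 1) * (dd / 2) :=
    (div_lt_iff₀ (by linarith)).1 (Int.lt_floor_add_one _)
  have hk1 : -60 ≤ k := by
    by_contra hc
    have : (k : ℝ) + 1 ≤ -60 := by exact_mod_cast (show k + 1 ≤ -60 by omega)
    nlinarith
  have hk2 : k ≤ 60 := by
    by_contra hc
    have : (61 : ℝ) ≤ k := by exact_mod_cast (show 61 ≤ k by omega)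
    nlinarith
  refine ⟨⟨(k + 65).toNat, by simp only [NL]; omega⟩, shiftP k (gp 2 (0, 0)), ?_, ?_⟩
  · simp only [layer]
    rw [if_neg (by omega), if_neg (by omega), if_neg (by omega), if_neg (by omega), if_neg (by omega),
      show ((k + 65).toNat : ℤ) - 65 = k by omega]
    exact Finset.mem_image_of_mem _ (Finset.mem_image_of_mem _ (Finset.mem_univ _))
  · simp only [shiftP, gp, sv, mem_Ico]
    push_cast
    constructor <;> linarith

theorem witness (hy : GoodY A y) : ∃ a ∈ A, |y - a 1| ≤ 5 / 2 ∧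
    ∀ b ∈ A, (∃ j, ∃ p ∈ layer j, y - b 1 - sv p.2.2.1 ∈ Ico 0 (sv p.2.2.2)) → Rel a b := by
  have hC := sect_tiling hy
  obtain ⟨⟨z, i⟩, hzi, -⟩ := Cell.exists_filler hC isOpen_univ ⟨0, trivial⟩
  have h0 := Cell.sub_mem hC hzi i.val 0
  rw [ZMod.natCast_zmod_val, sub_self] at h0
  obtain ⟨a, ha, j, p, hp, hI, hc⟩ := id h0
  have hj : j = 0 := by
    have h2 := congrArg Prod.snd hc
    simp only [pc, Cell.lat, idx] at h2
    push_cast at h2
    rw [show (126 : ZMod NL) = 0 from ZMod.natCast_self NL, zero_mul, zero_add] at h2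
    have h3 := congrArg ZMod.val h2
    rw [ZMod.val_zero, ZMod.val_natCast_of_lt j.2] at h3
    exact Fin.ext h3.symm
  subst hj
  refine ⟨a, ha, ?_, fun b hb ⟨i', q, hq, hIq⟩ =>
    rel_of_sect hy h0 ⟨b, hb, i', q, hq, hIq, rfl⟩ hc rfl⟩
  obtain ⟨⟨i, t⟩, -, rfl⟩ := Finset.mem_image.1 (show p ∈ gad 2 by simpa [layer] using hp)
  have := dd_pos; have := dd_lt
  simp only [gp, mem_Ico] at hI
  rw [abs_le]
  fin_cases t <;> simp only [sv] at hI <;> push_cast at hI <;> constructor <;> linarith [hI.1, hI.2]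

theorem rel_all (hae : ∀ᵐ y : ℝ, GoodY A y) : ∀ a ∈ A, ∀ b ∈ A, Rel a b := by
  suffices H : ∀ n : ℕ, ∀ a ∈ A, ∀ b ∈ A, |a 1 - b 1| ≤ 4 + (n : ℝ) / 2 → Rel a b by
    intro a ha b hb
    obtain ⟨n, hn⟩ := exists_nat_ge (2 * |a 1 - b 1|)
    exact H n a ha b hb (by linarith)
  intro n
  induction n with
  | zero =>
    intro a ha b hb hab
    rw [Nat.cast_zero, zero_div, add_zero, abs_le] at hab
    obtain ⟨y, hy, hg⟩ := exists_mem_Ioo hae
      (show (a 1 + b 1) / 2 < (a 1 + b 1) / 2 + 1 by linarith)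
    obtain ⟨c, -, -, hc⟩ := witness hg
    exact (hc a ha (alive (by rw [abs_le]; constructor <;> linarith [hy.1, hy.2]))).symm.trans
      (hc b hb (alive (by rw [abs_le]; constructor <;> linarith [hy.1, hy.2])))
  | succ n ih =>
    intro a ha b hb hab
    by_cases hle : |a 1 - b 1| ≤ 4 + (n : ℝ) / 2
    · exact ih a ha b hb hle
    push_cast at hab
    rw [not_le] at hle
    have hn : (0 : ℝ) ≤ (n : ℝ) / 2 := by positivity
    rcases le_total (a 1) (b 1) with hlt | hlt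
    · obtain ⟨y, hy, hg⟩ := exists_mem_Ioo hae (show a 1 + 3 < a 1 + 7 / 2 by linarith)
      obtain ⟨c, hc, hcy, hrel⟩ := witness hg
      rw [abs_le] at hcy
      rw [abs_of_nonpos (by linarith)] at hab hle
      exact (hrel a ha (alive (by rw [abs_le]; constructor <;> linarith [hy.1, hy.2]))).symm.trans
        (ih c hc b hb (by rw [abs_le]; constructor <;> linarith [hy.1, hy.2]))
    · obtain ⟨y, hy, hg⟩ := exists_mem_Ioo hae (show a 1 - 7 / 2 < a 1 - 3 by linarith)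
      obtain ⟨c, hc, hcy, hrel⟩ := witness hg
      rw [abs_le] at hcy
      rw [abs_of_nonneg (by linarith)] at hab hle
      exact (hrel a ha (alive (by rw [abs_le]; constructor <;> linarith [hy.1, hy.2]))).symm.trans
        (ih c hc b hb (by rw [abs_le]; constructor <;> linarith [hy.1, hy.2]))

theorem tiles_sub (hae : ∀ᵐ y : ℝ, GoodY A y) {t : Fin 3 → ℝ} (ht : t ∈ A) (j : Fin NL) :
    TilesSys (layer j) {b | emb (t 0) (t 2) b ∈ A} := by
  intro n m
  filter_upwards [hae] with y hy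
  have hall := rel_all hae
  have hmem : ∀ a ∈ A, ∃ b : Pt, a = emb (t 0) (t 2) b := by
    intro a ha
    obtain ⟨k, l, e1, e2⟩ := hall t ht a ha
    refine ⟨(k, l, a 1), funext fun i => ?_⟩
    fin_cases i <;> simp [emb, e1, e2]
  obtain ⟨b, p, hb, hp, hI, hidx⟩ : ∃ b p, emb (t 0) (t 2) b ∈ A ∧ p ∈ layer j ∧
      y - b.2.2 - sv p.2.2.1 ∈ Ico 0 (sv p.2.2.2) ∧ (b.1 + p.1 = n ∧ b.2.1 + p.2.1 = m) := by
    by_contra hc
    push Not at hc
    set c : Cell.Pl × ZMod NL := ((Cell.lat (idx j n m)).1 + (t 0, t 2), (Cell.lat (idx j n m)).2)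
    refine (Cell.cell_nonempty_open c).ne' (measure_mono_null (fun x hx => ?_)
      (measure_union_null (sect_tiling hy).cover (null_translate (t 0, t 2) Cell.volume_grid)))
    by_contra hn
    rw [mem_union, not_or, mem_compl_iff, not_not] at hn
    obtain ⟨hn1, hn2⟩ := hn
    obtain ⟨c', ⟨a, ha, i, q, hq, hIq, rfl⟩, hxc⟩ := mem_iUnion₂.1 hn1
    obtain ⟨b, rfl⟩ := hmem a ha
    rw [pc_emb, Cell.cell_vadd (_, _)] at hxc
    rw [Cell.cell_vadd (_, _)] at hx
    obtain ⟨u, -, hu⟩ := Cell.existsUnique_cell (N := NL) hn2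
    obtain ⟨rfl, e1, e2⟩ := idx_inj ((hu _ hxc).trans (hu _ hx).symm)
    exact hc b q ha hq (by simpa [emb] using hIq) e1 e2
  refine ⟨(b, p), ⟨hb, hp, hidx.1, hidx.2, hI⟩, ?_⟩
  rintro ⟨b', p'⟩ ⟨hb', hp', e1, e2, hI'⟩
  simp only at hb' hp' e1 e2 hI'
  have hpc : pc (emb (t 0) (t 2) b') j p' = pc (emb (t 0) (t 2) b) j p := by
    rw [pc_emb, pc_emb, e1, e2, hidx.1, hidx.2]
  by_cases heq : emb (t 0) (t 2) b' = emb (t 0) (t 2) b
  · have h0 := congrFun heq 0
    have h1 := congrFun heq 1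
    have h2 := congrFun heq 2
    simp [emb] at h0 h1 h2
    have hbb : b' = b := Prod.ext h0 (Prod.ext h2 h1)
    subst hbb
    exact Prod.ext rfl (layer_site j p' hp' p hp (by omega) (by omega))
  · exfalso
    have h := pc_unique hy hb' hb hp' hp (by simpa [emb] using hI') (by simpa [emb] using hI) heq
    rw [hpc, inter_self] at h
    exact (Cell.cell_nonempty_open _).ne' h

theorem tile_no_periodic (hcov : volume (⋃ a ∈ A, (fun x => a + x) '' tile)ᶜ = 0)
    (hdisj : ∀ a ∈ A, ∀ b ∈ A, a ≠ b →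
      volume ((fun x => a + x) '' tile ∩ (fun x => b + x) '' tile) = 0) :
    ¬ ∃ v : Module.Basis (Fin 3) ℝ (Fin 3 → ℝ), ∀ i a, a + v i ∈ A ↔ a ∈ A := by
  rintro ⟨v, hv⟩
  have hae := goodY_ae hcov hdisj
  obtain ⟨t, ht⟩ : A.Nonempty := by
    by_contra h
    rw [not_nonempty_iff_eq_empty] at h
    subst h
    simp at hcov
  set B : Set Pt := {b | emb (t 0) (t 2) b ∈ A}
  have hB : Sol B := by
    refine ⟨?_, ?_, ?_, ?_, ?_⟩
    · simpa [layer] using tiles_sub hae ht (0 : Fin NL)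
    · simpa [layer] using tiles_sub hae ht (1 : Fin NL)
    · simpa [layer] using tiles_sub hae ht ⟨2, by norm_num [NL]⟩
    · simpa [layer] using tiles_sub hae ht ⟨3, by norm_num [NL]⟩
    · simpa [layer] using tiles_sub hae ht ⟨4, by norm_num [NL]⟩
  obtain ⟨i, hi⟩ : ∃ i, v i 0 ≠ 0 := by
    by_contra hc
    push Not at hc
    have h1 := congrFun (v.sum_repr (Pi.single 0 1)) 0
    simp [Finset.sum_apply, hc] at h1
  obtain ⟨n, m, e1, e2⟩ := rel_all hae t ht (t + v i) ((hv i t).2 ht)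
  simp only [Pi.add_apply, add_right_inj] at e1 e2
  have hn : n ≠ 0 := by
    rintro rfl
    exact hi (by simpa using e1)
  have hq : ∀ (q : ℕ) (n' m' : ℤ) (z : ℝ),
      (n' + q * n, m' + q * m, z + q * v i 1) ∈ B ↔ (n', m', z) ∈ B := by
    intro q
    induction q with
    | zero => simp
    | succ q ih =>
      intro n' m' z
      rw [← ih n' m' z]
      show emb (t 0) (t 2) _ ∈ A ↔ emb (t 0) (t 2) _ ∈ A
      refine Iff.trans ?_ (hv i _)
      refine iff_of_eq (congrArg (· ∈ A) (funext fun k => ?_))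
      fin_cases k <;> simp [emb, e1, e2] <;> ring
  have hm : ∀ (n' m' : ℤ) (z : ℝ) (s : ℕ), (n', m' + 4 * (s : ℤ), z) ∈ B ↔ (n', m', z) ∈ B := by
    intro n' m' z s
    induction s with
    | zero => simp
    | succ s ih =>
      rw [← ih, per_m hB n' (m' + 4 * ((s + 1 : ℕ) : ℤ)) z]
      push_cast
      ring_nf
  refine no_period hB hn (τ := 8 * v i 1) fun n' m' z => ?_
  have h8 := hq 8 n' m' z
  push_cast at h8
  rw [← h8]
  rcases le_total 0 m with hm0 | hm0
  · rw [show m' + 8 * m = m' + 4 * ((2 * m).toNat : ℤ) by omega, hm]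
  · conv_lhs => rw [show m' = m' + 8 * m + 4 * ((-(2 * m)).toNat : ℤ) by omega, hm]

end Vale.Agent.P043.R3
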