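import Mathlib

/-!
# The system of tiling equations on `ℤ × ℤ × ℝ` behind the tile of `ℝ³`
-/

namespace Vale.Agent.P043.R3

open MeasureTheory

/-- The irrational parameter. -/
noncomputable def dd : ℝ := Real.sqrt 2 / 10

/-- A piece: the site offset, the start and the length, the latter two coded in eighths of the
parameter and in halves. -/
abbrev Piece := ℤ × ℤ × (ℤ × ℤ) × (ℤ × ℤ)

/-- The real number coded by a pair of integers. -/
noncomputable def sv (k : ℤ × ℤ) : ℝ := (k.1 : ℝ) * dd / 8 + (k.2 : ℝ) / 2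

/-- A point of `ℤ × ℤ × ℝ`. -/
abbrev Pt := ℤ × ℤ × ℝ

/-- The translate by `a` of the piece `p` covers the point `y` above the site `(n, m)`. -/
def Covers (a : Pt) (p : Piece) (n m : ℤ) (y : ℝ) : Prop :=
  a.1 + p.1 = n ∧ a.2.1 + p.2.1 = m ∧
    y - a.2.2 - sv p.2.2.1 ∈ Set.Ico 0 (sv p.2.2.2)

/-- Almost every point is covered exactly once by the translates of the pieces. -/
def TilesSys (E : Finset Piece) (A : Set Pt) : Prop :=
  ∀ n m : ℤ, ∀ᵐ y : ℝ, ∃! w : Pt × Piece, w.1 ∈ A ∧ w.2 ∈ E ∧ Covers w.1 w.2 n m y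

/-- The pieces of the gadget along the direction `(1, k)`. -/
def gp (k : ℤ) (w : Fin 4 × Fin 4) : Piece :=
  (4 * (w.2.val : ℤ) + (w.1.val : ℤ), k * (w.1.val : ℤ),
    match w.2 with
    | 0 => ((0, 0), (8, 0))
    | 1 => ((4, 0), (-8, 1))
    | 2 => ((8, 0), (-8, 1))
    | 3 => ((-4, 1), (8, 0)))

/-- The gadget along the direction `(1, k)`. -/
def gad (k : ℤ) : Finset Piece := Finset.univ.image (gp k)

/-- The bits of the third equation. -/
def bit (i : Fin 2) (j : Fin 4) : ℤ :=
  match i, j with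
  | 0, 0 => 0
  | 0, 1 => 0
  | 0, 2 => 1
  | 0, 3 => 1
  | 1, 0 => 0
  | 1, 1 => 1
  | 1, 2 => 1
  | 1, 3 => 0

/-- The pieces of the third equation. -/
def hp (w : Fin 2 × Fin 4) : Piece :=
  (2 * (w.1.val : ℤ), (w.2.val : ℤ), (-2 * (w.1.val : ℤ), bit w.1 w.2), (0, 1))

/-- The third equation. -/
def hal : Finset Piece := Finset.univ.image hp

/-- The gadget along `(1, 2)` with its first piece moved by a translation. -/
def mov (dm dq : ℤ) : Finset Piece :=
  insert (0, dm, (0, dq), (8, 0)) ((gad 2).erase (gp 2 (0, 0)))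

/-- `A` solves all equations. -/
structure Sol (A : Set Pt) : Prop where
  g2 : TilesSys (gad 2) A
  g3 : TilesSys (gad 3) A
  g1 : TilesSys hal A
  mz : TilesSys (mov 4 0) A
  my : TilesSys (mov 0 2) A

end Vale.Agent.P043.R3
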