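import Vale.Agent.P043.R3.Defs

/-!
# A solution of the system

Static antipodal pairs above two sites and moving single points above four, periodically repeated.
-/

namespace Vale.Agent.P043.R3

open Set

theorem dd_pos : 0 < dd := div_pos (Real.sqrt_pos.2 (by norm_num)) (by norm_num)

theorem dd_lt : dd < 1 / 6 := by
  have : Real.sqrt 2 < 3 / 2 := (Real.sqrt_lt' (by norm_num)).2 (by norm_num)
  unfold dd; linarith

theorem dd_irrational : Irrational dd := by
  have h := irrational_sqrt_two.div_natCast (m := 10) (by norm_num)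
  simpa [dd] using h

/-- The points above a site: the flag says whether the point moves. -/
def base (r : ZMod 8) (b : ZMod 4) : Finset (Bool × ZMod 2) :=
  if (r = 3 ∧ b = 1) ∨ (r = 7 ∧ b = 2) then {(false, 0), (false, 1)}
  else if (r = 0 ∧ b = 2) ∨ (r = 6 ∧ b = 1) then {(true, 0)}
  else if (r = 2 ∧ b = 1) ∨ (r = 4 ∧ b = 2) then {(true, 1)}
  else ∅

/-- The position coded by a key above `n`. -/
noncomputable def bv (n : ℤ) (k : Bool × ZMod 2) : ℝ :=
  (if k.1 then -(n : ℝ) * dd / 8 else 0) + (k.2.val : ℝ) / 2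

/-- The translation set. -/
def A0 : Set Pt := {a | ∃ k ∈ base a.1 a.2.1, ∃ t : ℤ, a.2.2 = bv a.1 k + t}

/-- The key of the start of an arc. -/
def startKey (p : Piece) (k : Bool × ZMod 2) : Bool × ℤ × ZMod 2 :=
  (k.1, (if k.1 then p.1 else 0) + p.2.2.1.1, k.2 + (p.2.2.1.2 : ZMod 2))

/-- The key of the end of an arc. -/
def endKey (p : Piece) (k : Bool × ZMod 2) : Bool × ℤ × ZMod 2 :=
  ((startKey p k).1, (startKey p k).2.1 + p.2.2.2.1, (startKey p k).2.2 + (p.2.2.2.2 : ZMod 2))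

/-- The incidences above the class of a site. -/
def inc (E : Finset Piece) (r : ZMod 8) (b : ZMod 4) : Finset (Piece × (Bool × ZMod 2)) :=
  E.biUnion fun p => (base (r - (p.1 : ZMod 8)) (b - (p.2.1 : ZMod 4))).image fun k => (p, k)

/-- The finite condition under which `A0` solves an equation. -/
def Good (E : Finset Piece) : Prop :=
  (∀ p ∈ E, p.2.2.2 = (8, 0) ∨ p.2.2.2 = (-8, 1) ∨ p.2.2.2 = (0, 1)) ∧
    ∀ r b, ((inc E r b).val.map fun w => startKey w.1 w.2)
        = ((inc E r b).val.map fun w => endKey w.1 w.2) ∧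
      ((inc E r b).val.map fun w => w.1.2.2.2.1).sum = 0 ∧
      ((inc E r b).val.map fun w => w.1.2.2.2.2).sum = 2

instance (E : Finset Piece) : Decidable (Good E) := by unfold Good; infer_instance

theorem sv_len {L : ℤ × ℤ} (h : L = (8, 0) ∨ L = (-8, 1) ∨ L = (0, 1)) : 0 < sv L ∧ sv L < 1 := by
  have := dd_pos
  have := dd_lt
  rcases h with rfl | rfl | rfl <;> simp only [sv] <;> push_cast <;> constructor <;> linarith

theorem ind_eq {x L : ℝ} (h0 : 0 < L) (h1 : L < 1) :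
    ⌊x⌋ - ⌊x - L⌋ = if Int.fract x < L then 1 else 0 := by
  have hx := Int.floor_add_fract x
  have hf := Int.fract_nonneg x
  have hf1 := Int.fract_lt_one x
  split_ifs with h
  · have : ⌊x - L⌋ = ⌊x⌋ - 1 := Int.floor_eq_iff.2 ⟨by push_cast; linarith, by push_cast; linarith⟩
    omega
  · have : ⌊x - L⌋ = ⌊x⌋ := Int.floor_eq_iff.2 ⟨by linarith, by linarith⟩
    omega

/-- The position coded by an arc key above `n`. -/
noncomputable def kv (n : ℤ) (K : Bool × ℤ × ZMod 2) : ℝ :=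
  (if K.1 then -(n : ℝ) * dd / 8 else 0) + (K.2.1 : ℝ) * dd / 8 + (K.2.2.val : ℝ) / 2

theorem half_val (q : ZMod 2) (z : ℤ) :
    ∃ t : ℤ, ((q + (z : ZMod 2)).val : ℝ) / 2 = (q.val : ℝ) / 2 + (z : ℝ) / 2 + t := by
  have h : ((((q + (z : ZMod 2)).val : ℤ) - ((q.val : ℤ) + z) : ℤ) : ZMod 2) = 0 := by
    push_cast; simp
  rw [ZMod.intCast_zmod_eq_zero_iff_dvd] at h
  obtain ⟨t, ht⟩ := h
  refine ⟨t, ?_⟩
  have ht' := congrArg (fun u : ℤ => (u : ℝ)) ht
  push_cast at ht'
  linarith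

theorem start_val (n : ℤ) (p : Piece) (k : Bool × ZMod 2) :
    ∃ t : ℤ, kv n (startKey p k) = bv (n - p.1) k + sv p.2.2.1 + t := by
  obtain ⟨t, ht⟩ := half_val k.2 p.2.2.1.2
  refine ⟨t, ?_⟩
  obtain ⟨c, q⟩ := k
  cases c <;> simp only [kv, startKey, bv, sv, Bool.false_eq_true, if_false, if_true] <;>
    push_cast <;> linarith [ht]

theorem end_val (n : ℤ) (p : Piece) (k : Bool × ZMod 2) :
    ∃ t : ℤ, kv n (endKey p k) = kv n (startKey p k) + sv p.2.2.2 + t := by
  obtain ⟨t, ht⟩ := half_val (startKey p k).2.2 p.2.2.2.2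
  refine ⟨t, ?_⟩
  simp only [endKey]
  generalize startKey p k = K at ht ⊢
  obtain ⟨c, P, q⟩ := K
  cases c <;> simp only [kv, sv, Bool.false_eq_true, if_false, if_true] <;> push_cast <;>
    linear_combination ht

theorem count_one {E : Finset Piece} (hE : Good E) (n m : ℤ) (y : ℝ) :
    ∃! w, w ∈ inc E n m ∧ Int.fract (y - (bv (n - w.1.1) w.2 + sv w.1.2.2.1)) < sv w.1.2.2.2 := by
  classical
  set S := inc E (n : ZMod 8) (m : ZMod 4)
  obtain ⟨hlen, hkey⟩ := hE
  obtain ⟨hk, hs1, hs2⟩ := hkey (n : ZMod 8) (m : ZMod 4)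
  have hL : ∀ w ∈ S, 0 < sv w.1.2.2.2 ∧ sv w.1.2.2.2 < 1 := by
    intro w hw
    simp only [S, inc, Finset.mem_biUnion, Finset.mem_image] at hw
    obtain ⟨p, hp, k, -, rfl⟩ := hw
    exact sv_len (hlen p hp)
  have hone : ∀ w ∈ S,
      ((if Int.fract (y - (bv (n - w.1.1) w.2 + sv w.1.2.2.1)) < sv w.1.2.2.2 then 1 else 0 : ℤ) : ℝ)
      = sv w.1.2.2.2 - Int.fract (y - kv n (startKey w.1 w.2))
        + Int.fract (y - kv n (endKey w.1 w.2)) := by
    intro w hw
    obtain ⟨t, ht⟩ := start_val n w.1 w.2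
    obtain ⟨t', ht'⟩ := end_val n w.1 w.2
    set x := y - (bv (n - w.1.1) w.2 + sv w.1.2.2.1) with hx
    rw [← ind_eq (hL w hw).1 (hL w hw).2]
    have e1 : Int.fract (y - kv n (startKey w.1 w.2)) = Int.fract x := by
      rw [ht, show y - (bv (n - w.1.1) w.2 + sv w.1.2.2.1 + t) = x - t by rw [hx]; ring,
        Int.fract_sub_intCast]
    have e2 : Int.fract (y - kv n (endKey w.1 w.2)) = Int.fract (x - sv w.1.2.2.2) := by
      rw [ht', ht, show y - (bv (n - w.1.1) w.2 + sv w.1.2.2.1 + t + sv w.1.2.2.2 + t')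
        = x - sv w.1.2.2.2 - ((t + t' : ℤ) : ℝ) by rw [hx]; push_cast; ring, Int.fract_sub_intCast]
    rw [e1, e2]
    simp only [Int.fract]
    push_cast
    ring
  have hsum : ((∑ w ∈ S,
      if Int.fract (y - (bv (n - w.1.1) w.2 + sv w.1.2.2.1)) < sv w.1.2.2.2 then (1 : ℤ) else 0 : ℤ) : ℝ)
      = 1 := by
    rw [Int.cast_sum, Finset.sum_congr rfl hone, Finset.sum_add_distrib, Finset.sum_sub_distrib]
    have h1 : ∑ w ∈ S, Int.fract (y - kv n (startKey w.1 w.2))
        = ∑ w ∈ S, Int.fract (y - kv n (endKey w.1 w.2)) := by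
      have := congrArg (fun M => (M.map fun K => Int.fract (y - kv n K)).sum) hk
      simp only [Multiset.map_map] at this
      exact this
    have h2 : ((∑ w ∈ S, w.1.2.2.2.1 : ℤ) : ℝ) = 0 := by
      rw [Finset.sum_eq_multiset_sum, hs1]; simp
    have h3 : ((∑ w ∈ S, w.1.2.2.2.2 : ℤ) : ℝ) = 2 := by
      rw [Finset.sum_eq_multiset_sum, hs2]; simp
    push_cast at h2 h3
    have h4 : ∑ w ∈ S, sv w.1.2.2.2 = 1 := by
      simp only [sv, Finset.sum_add_distrib, ← Finset.sum_div, ← Finset.sum_mul, h2, h3]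
      ring
    rw [h1, h4]; ring
  have hsum' : (S.filter fun w =>
      Int.fract (y - (bv (n - w.1.1) w.2 + sv w.1.2.2.1)) < sv w.1.2.2.2).card = 1 := by
    rw [Finset.sum_boole] at hsum
    exact_mod_cast hsum
  obtain ⟨w, hw⟩ := Finset.card_eq_one.1 hsum'
  have hm : ∀ v, (v ∈ S ∧ Int.fract (y - (bv (n - v.1.1) v.2 + sv v.1.2.2.1)) < sv v.1.2.2.2) ↔
      v = w := by
    intro v
    simpa using Finset.ext_iff.1 hw v
  exact ⟨w, (hm w).2 rfl, fun v hv => (hm v).1 hv⟩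

theorem tilesSys_A0 {E : Finset Piece} (hE : Good E) (n m : ℤ) (y : ℝ) :
    ∃! w : Pt × Piece, w.1 ∈ A0 ∧ w.2 ∈ E ∧ Covers w.1 w.2 n m y := by
  obtain ⟨⟨p, k⟩, ⟨hpk, hlt⟩, hu⟩ := count_one hE n m y
  simp only [inc, Finset.mem_biUnion, Finset.mem_image, Prod.mk.injEq] at hpk
  obtain ⟨p₁, hp, k₁, hk, e₁, e₂⟩ := hpk
  rw [e₁] at hp hk
  rw [e₂] at hk
  set x := y - (bv (n - p.1) k + sv p.2.2.1) with hx
  refine ⟨((n - p.1, m - p.2.1, bv (n - p.1) k + ⌊x⌋), p),
    ⟨⟨k, by simpa using hk, ⌊x⌋, rfl⟩, hp, sub_add_cancel _ _, sub_add_cancel _ _, ?_⟩, ?_⟩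
  · have e : y - (bv (n - p.1) k + ⌊x⌋) - sv p.2.2.1 = Int.fract x := by
      rw [Int.fract, hx]; ring
    show y - (bv (n - p.1) k + ⌊x⌋) - sv p.2.2.1 ∈ Ico _ _
    rw [e]
    exact ⟨Int.fract_nonneg _, hlt⟩
  · rintro ⟨⟨a1, a2, a3⟩, p'⟩ ⟨⟨k', hk', t, ht⟩, hp', hn, hm, hI⟩
    simp only at hn hm hI hk' hp' ht
    subst ht
    obtain rfl : a1 = n - p'.1 := by omega
    obtain rfl : a2 = m - p'.2.1 := by omega
    have hL : sv p'.2.2.2 < 1 := (sv_len (hE.1 p' hp')).2
    set x' := y - (bv (n - p'.1) k' + sv p'.2.2.1) with hx'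
    have hmem : x' - t ∈ Ico 0 (sv p'.2.2.2) := by
      rwa [show x' - t = y - (bv (n - p'.1) k' + t) - sv p'.2.2.1 by rw [hx']; ring]
    have hf : ⌊x'⌋ = t :=
      Int.floor_eq_iff.2 ⟨by linarith [hmem.1], by linarith [hmem.2]⟩
    have h := hu (p', k') ⟨?_, ?_⟩
    · simp only [Prod.mk.injEq] at h
      obtain ⟨rfl, rfl⟩ := h
      rw [show x = x' from rfl, hf]
    · simp only [inc, Finset.mem_biUnion, Finset.mem_image]
      exact ⟨p', hp', k', by simpa using hk', rfl⟩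
    · show Int.fract x' < _
      rw [Int.fract, hf]
      exact hmem.2

set_option maxRecDepth 100000 in
theorem good_gad2 : Good (gad 2) := by decide +kernel

set_option maxRecDepth 100000 in
theorem good_gad3 : Good (gad 3) := by decide +kernel

set_option maxRecDepth 100000 in
theorem good_hal : Good hal := by decide +kernel

set_option maxRecDepth 100000 in
theorem good_movz : Good (mov 4 0) := by decide +kernel

set_option maxRecDepth 100000 in
theorem good_movy : Good (mov 0 2) := by decide +kernel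

theorem sol_A0 : Sol A0 :=
  ⟨fun n m => .of_forall (tilesSys_A0 good_gad2 n m), fun n m => .of_forall (tilesSys_A0 good_gad3 n m),
    fun n m => .of_forall (tilesSys_A0 good_hal n m), fun n m => .of_forall (tilesSys_A0 good_movz n m),
    fun n m => .of_forall (tilesSys_A0 good_movy n m)⟩

end Vale.Agent.P043.R3
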