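import Vale.Agent.P043.R3.Modes

/-!
# The gadget: pooled points are static antipodal pairs or move with the speed of the parameter

If the solution has a period, all pooled sites are of one of these two types.
-/

namespace Vale.Agent.P043.R3

open Finset

theorem ee_half : ee (1 / 2) = -1 := by
  rw [ee, show ((2 * Real.pi * (1 / 2) : ℝ) : ℂ) * Complex.I = (Real.pi : ℂ) * Complex.I by
    push_cast; ring, Complex.exp_pi_mul_I]

theorem ee_neg (x : ℝ) : ee (-x) = (ee x)⁻¹ :=
  eq_inv_of_mul_eq_one_left (by rw [← ee_add, neg_add_cancel, ee_zero])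

theorem ee_two_mul (x : ℝ) : ee (2 * x) = ee x ^ 2 := by rw [two_mul, ee_add, sq]

theorem ee_zpow (x : ℝ) (z : ℤ) : ee x ^ z = ee (z * x) := by
  simp only [ee, ← Complex.exp_int_mul]
  congr 1
  push_cast; ring

/-- The basic phase. -/
noncomputable def ss : ℂ := ee (dd / 2)

theorem ss_sq : ss ^ 2 = ee dd := by rw [ss, ← ee_two_mul]; congr 1; ring

theorem norm_ee_dd_sub_one : ‖ee dd - 1‖ < 1 := by
  have h : ‖ee dd - 1‖ ^ 2 = 2 - 2 * Real.cos (2 * Real.pi * dd) := by
    rw [ee, Complex.exp_mul_I, ← Complex.normSq_eq_norm_sq, Complex.normSq_apply]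
    simp only [Complex.add_re, Complex.sub_re, Complex.add_im, Complex.sub_im, Complex.mul_re,
      Complex.mul_im, Complex.I_re, Complex.I_im, Complex.one_re, Complex.one_im,
      Complex.cos_ofReal_re, Complex.cos_ofReal_im, Complex.sin_ofReal_re, Complex.sin_ofReal_im]
    have := Real.sin_sq_add_cos_sq (2 * Real.pi * dd)
    linear_combination this
  have hc : 1 / 2 < Real.cos (2 * Real.pi * dd) := by
    rw [← Real.cos_pi_div_three]
    refine Real.cos_lt_cos_of_nonneg_of_le_pi ?_ (by linarith [Real.pi_pos]) ?_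
    · have := dd_pos; positivity
    · nlinarith [Real.pi_pos, dd_lt]
  nlinarith [norm_nonneg (ee dd - 1)]

theorem pts_per_int {A : Set Pt} (hA : Sol A) (n m t : ℤ) : pts A n (m + 4 * t) = pts A n m := by
  induction t with
  | zero => simp
  | succ k hk => rw [show m + 4 * ((k : ℤ) + 1) = m + 4 * k + 4 by ring, pts_per hA, hk]
  | pred k hk =>
    rw [← hk, show m + 4 * (-(k : ℤ)) = m + 4 * (-(k : ℤ) - 1) + 4 by ring, pts_per hA]

theorem pts_congr {A : Set Pt} (hA : Sol A) (n : ℤ) {m m' : ℤ} (h : (4 : ℤ) ∣ m' - m) :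
    pts A n m' = pts A n m := by
  obtain ⟨t, ht⟩ := h
  rw [show m' = m + 4 * t by linarith, pts_per_int hA]

theorem cnt_congr {A : Set Pt} (hA : Sol A) (n : ℤ) {m m' : ℤ} (h : (4 : ℤ) ∣ m' - m) :
    cnt A n m' = cnt A n m := by rw [cnt, cnt, pts_congr hA n h]

theorem V_one_of_cnt {A : Set Pt} {n m : ℤ} : cnt A n m = 0 → ∀ k, V A k n m = 0 := fun h k => by
  rw [V, Finset.card_eq_zero.1 h, Finset.sum_empty]

/-- The pooled points along the direction `(1, j)` ending at `(n, m)`. -/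
noncomputable def pool (A : Set Pt) (j n m : ℤ) : Finset ((_ : Fin 4) × ℝ) :=
  Finset.univ.sigma fun i : Fin 4 => pts A (n - i.val) (m - j * i.val)

/-- The number of pooled points. -/
noncomputable def W (A : Set Pt) (j n m : ℤ) : ℕ := (pool A j n m).card

/-- The Fourier coefficient of the pooled points. -/
noncomputable def S (A : Set Pt) (k : ℕ) (j n m : ℤ) : ℂ := ∑ w ∈ pool A j n m, ee (k * w.2)

theorem S_eq (A : Set Pt) (k : ℕ) (j n m : ℤ) :
    S A k j n m = ∑ i : Fin 4, V A k (n - i.val) (m - j * i.val) := by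
  rw [S, pool, Finset.sum_sigma]; rfl

theorem W_eq (A : Set Pt) (j n m : ℤ) :
    W A j n m = ∑ i : Fin 4, cnt A (n - i.val) (m - j * i.val) := by
  rw [W, pool, Finset.card_sigma]; rfl

theorem S_of_W_zero {A : Set Pt} {j n m : ℤ} (h : W A j n m = 0) (k : ℕ) : S A k j n m = 0 := by
  rw [S, Finset.card_eq_zero.1 h, Finset.sum_empty]

theorem norm_S_le (A : Set Pt) (k : ℕ) (j n m : ℤ) : ‖S A k j n m‖ ≤ W A j n m := by
  refine (norm_sum_le _ _).trans (le_of_eq ?_)
  simp [norm_ee, W]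

theorem S_ne_of_W_one {A : Set Pt} {j n m : ℤ} (h : W A j n m = 1) (k : ℕ) : S A k j n m ≠ 0 := by
  obtain ⟨w, hw⟩ := Finset.card_eq_one.1 h
  rw [S, hw, Finset.sum_singleton]
  exact ee_ne_zero _

theorem S_two_ne {A : Set Pt} {j n m : ℤ} (h : W A j n m = 2) (h1 : S A 1 j n m = 0) :
    S A 2 j n m ≠ 0 := by
  obtain ⟨u, v, huv, hw⟩ := Finset.card_eq_two.1 h
  rw [S, hw, Finset.sum_pair huv, Nat.cast_one, one_mul, one_mul] at h1
  rw [S, hw, Finset.sum_pair huv, Nat.cast_ofNat, ee_two_mul, ee_two_mul,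
    eq_neg_of_add_eq_zero_right h1, neg_sq, ← two_mul]
  exact mul_ne_zero two_ne_zero (pow_ne_zero _ (ee_ne_zero _))

theorem gp_inj (j : ℤ) : Function.Injective (gp j) := by
  rintro ⟨i, t⟩ ⟨i', t'⟩ h
  have h1 := congrArg Prod.fst h
  simp only [gp] at h1
  have := i.2; have := i'.2
  simp only [Prod.mk.injEq]
  constructor <;> ext <;> omega

/-- A sum over the gadget, layer by layer. -/
theorem sum_gad {M : Type} [AddCommMonoid M] (j : ℤ) (F : Piece → M) :
    ∑ p ∈ gad j, F p = ∑ t : Fin 4, ∑ i : Fin 4, F (gp j (i, t)) := by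
  rw [gad, Finset.sum_image fun _ _ _ _ h => gp_inj j h, Fintype.sum_prod_type, Finset.sum_comm]

variable {A : Set Pt} {j : ℤ}

theorem gad_count (hA : Sol A) (hT : TilesSys (gad j) A) (hG : Good (gad j)) (n m : ℤ) :
    W A j n m + W A j (n + 4) m = 2 := by
  have h := mode_zero hA hT hG (n + 8) m
  rw [sum_gad] at h
  simp only [Fin.sum_univ_four (fun t : Fin 4 => ∑ i : Fin 4,
    (cnt A (n + 8 - (gp j (i, t)).1) (m - (gp j (i, t)).2.1) : ℝ) * sv (gp j (i, t)).2.2.2)] at h
  simp only [← Finset.sum_mul, gp] at h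
  have e : ∀ (u c : ℤ), n + 8 - c = u → (∑ i : Fin 4,
      (cnt A (n + 8 - (c + (i.val : ℤ))) (m - j * (i.val : ℤ)) : ℝ)) = (W A j u m : ℝ) := by
    intro u c hu
    rw [W_eq, Nat.cast_sum]
    refine Finset.sum_congr rfl fun i _ => ?_
    rw [show n + 8 - (c + (i.val : ℤ)) = u - i.val by rw [← hu]; ring]
  rw [e (n + 8) _ (by norm_num), e (n + 4) _ (by norm_num; ring), e n _ (by norm_num),
    e (n - 4) _ (by norm_num; ring)] at h
  simp only [sv] at h
  push_cast at h
  set p : ℤ := (W A j (n + 8) m : ℤ) + W A j (n - 4) m with hp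
  set q : ℤ := (W A j (n + 4) m : ℤ) + W A j n m with hq
  have h' : dd * ((p : ℝ) - q) + (q : ℝ) / 2 = 1 := by
    rw [hp, hq]; push_cast; linear_combination h
  have hpq : p = q := by
    by_contra hne
    have hne' : ((p : ℝ) - q) ≠ 0 := sub_ne_zero.2 (by exact_mod_cast hne)
    refine dd_irrational.ne_rat ((1 - (q : ℚ) / 2) / ((p : ℚ) - q)) ?_
    push_cast
    rw [eq_div_iff hne']; linarith
  rw [hpq, sub_self, mul_zero, zero_add] at h'
  have : (q : ℝ) = 2 := by linarith
  have : q = 2 := by exact_mod_cast this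
  omega

theorem cnt_per (hA : Sol A) (hT : TilesSys (gad j) A) (hG : Good (gad j)) (n m : ℤ) :
    cnt A (n + 8) m = cnt A n m := by
  have h1 := gad_count hA hT hG (n + 3) (m + 3 * j)
  have h2 := gad_count hA hT hG (n + 4) (m + 4 * j)
  simp only [W_eq, Fin.sum_univ_four] at h1 h2
  norm_num at h1 h2
  ring_nf at h1 h2 ⊢
  have e0 : cnt A (4 + n) (m + j * 4) = cnt A (4 + n) m := cnt_congr hA _ ⟨j, by ring⟩
  have e1 : cnt A (8 + n) (m + j * 4) = cnt A (8 + n) m := cnt_congr hA _ ⟨j, by ring⟩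
  omega

theorem gad_mode (hA : Sol A) (hT : TilesSys (gad j) A) (hG : Good (gad j)) (n m : ℤ) (k : ℕ)
    (hk : k ≠ 0) :
    (ee (k * dd) - 1) * S A k j n m + (ee (k * (1 / 2 - dd / 2)) - ee (k * (dd / 2))) * S A k j (n - 4) m
      + (ee (k * (1 / 2)) - ee (k * dd)) * S A k j (n - 8) m
      + (ee (k * (1 / 2 + dd / 2)) - ee (k * (1 / 2 - dd / 2))) * S A k j (n - 12) m = 0 := by
  have h := mode_eq hA hT hG n m hk
  rw [sum_gad] at h
  simp only [Fin.sum_univ_four (fun t : Fin 4 => ∑ i : Fin 4,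
    (ee (k * (sv (gp j (i, t)).2.2.1 + sv (gp j (i, t)).2.2.2)) - ee (k * sv (gp j (i, t)).2.2.1))
      * V A k (n - (gp j (i, t)).1) (m - (gp j (i, t)).2.1))] at h
  simp only [← Finset.mul_sum, gp] at h
  have e : ∀ (u c : ℤ), n - c = u → (∑ i : Fin 4,
      V A k (n - (c + (i.val : ℤ))) (m - j * (i.val : ℤ))) = S A k j u m := by
    intro u c hu
    rw [S_eq]
    refine Finset.sum_congr rfl fun i _ => ?_
    rw [show n - (c + (i.val : ℤ)) = u - i.val by rw [← hu]; ring]
  rw [e n _ (by norm_num), e (n - 4) _ (by norm_num), e (n - 8) _ (by norm_num),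
    e (n - 12) _ (by norm_num)] at h
  simp only [sv] at h
  push_cast at h
  ring_nf at h ⊢
  simp only [ee_zero] at h
  linear_combination h

theorem gad_step (hA : Sol A) (hT : TilesSys (gad j) A) (hG : Good (gad j)) (n m : ℤ) :
    S A 1 j (n + 4) m = -ss⁻¹ * S A 1 j n m := by
  set u : ℤ → ℂ := fun t => S A 1 j (n + 4 * t) m + ss⁻¹ * S A 1 j (n + 4 * (t - 1)) m with hu
  set ρ := ‖ee dd - 1‖ with hρ
  have hρ1 : ρ < 1 := norm_ee_dd_sub_one
  have hs0 : ss ≠ 0 := ee_ne_zero _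
  have hrec : ∀ t, (ee dd - 1) * (u (t + 1) - u (t - 1)) = 2 * ss * u t := by
    intro t
    have h := gad_mode hA hT hG (n + 4 * (t + 1)) m 1 one_ne_zero
    simp only [Nat.cast_one, one_mul] at h
    rw [sub_eq_add_neg (1 / 2 : ℝ) (dd / 2), ee_add, ee_add, ee_neg, ee_half,
      show ee (dd / 2) = ss from rfl, ← ss_sq] at h
    simp only [hu]
    rw [show n + 4 * (t + 1) - 4 = n + 4 * t by ring,
      show n + 4 * (t + 1) - 8 = n + 4 * (t - 1) by ring,
      show n + 4 * (t + 1) - 12 = n + 4 * (t - 1 - 1) by ring] at h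
    rw [show t + 1 - 1 = t by ring, ← ss_sq]
    field_simp at h ⊢
    linear_combination h
  have hb : ∀ t, ‖u t‖ ≤ 4 := by
    intro t
    refine (norm_add_le _ _).trans ?_
    rw [norm_mul, norm_inv, ss, norm_ee, inv_one, one_mul]
    have h1 := norm_S_le A 1 j (n + 4 * t) m
    have h2 := norm_S_le A 1 j (n + 4 * (t - 1)) m
    have h3 : (W A j (n + 4 * t) m : ℝ) ≤ 2 := by
      have := gad_count hA hT hG (n + 4 * t) m; exact_mod_cast (show W A j (n + 4 * t) m ≤ 2 by omega)
    have h4 : (W A j (n + 4 * (t - 1)) m : ℝ) ≤ 2 := by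
      have := gad_count hA hT hG (n + 4 * (t - 1)) m
      exact_mod_cast (show W A j (n + 4 * (t - 1)) m ≤ 2 by omega)
    linarith
  have hit : ∀ (q : ℕ) t, ‖u t‖ ≤ 4 * ρ ^ q := by
    intro q
    induction q with
    | zero => simpa using hb
    | succ q ih =>
      intro t
      have h := congrArg (fun z : ℂ => ‖z‖) (hrec t)
      simp only [norm_mul, ss, norm_ee, mul_one, Complex.norm_ofNat] at h
      have h2 : ‖u (t + 1) - u (t - 1)‖ ≤ 4 * ρ ^ q + 4 * ρ ^ q :=
        (norm_sub_le _ _).trans (add_le_add (ih _) (ih _))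
      have h3 := mul_le_mul_of_nonneg_left h2 (norm_nonneg (ee dd - 1))
      rw [h] at h3
      rw [pow_succ]
      nlinarith
  have h0 : ∀ t, u t = 0 := by
    intro t
    rw [← norm_le_zero_iff]
    exact ge_of_tendsto' (f := fun q : ℕ => 4 * ρ ^ q)
      (by simpa using (tendsto_pow_atTop_nhds_zero_of_lt_one (norm_nonneg _) hρ1).const_mul 4)
      fun q => hit q t
  have := h0 1
  simp only [hu, mul_one, sub_self, mul_zero, add_zero] at this
  linear_combination this

theorem gad_iter (hA : Sol A) (hT : TilesSys (gad j) A) (hG : Good (gad j)) (n m q : ℤ) :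
    S A 1 j (n + 4 * q) m = (-ss⁻¹) ^ q * S A 1 j n m := by
  have hs : -ss⁻¹ ≠ 0 := neg_ne_zero.2 (inv_ne_zero (ee_ne_zero _))
  induction q with
  | zero => simp
  | succ k hk =>
    rw [show n + 4 * ((k : ℤ) + 1) = n + 4 * k + 4 by ring, gad_step hA hT hG, hk, zpow_add_one₀ hs]
    ring
  | pred k hk =>
    have h := gad_step hA hT hG (n + 4 * (-(k : ℤ) - 1)) m
    rw [show n + 4 * (-(k : ℤ) - 1) + 4 = n + 4 * -(k : ℤ) by ring, hk] at h
    refine mul_left_cancel₀ hs ?_
    rw [← h, zpow_sub_one₀ hs]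
    field_simp [ee_ne_zero, ss]

theorem gad_still (hA : Sol A) (hT : TilesSys (gad j) A) (hG : Good (gad j)) {n m : ℤ}
    (hW : W A j n m = 2) : S A 2 j n m = S A 2 j (n - 8) m := by
  have h4 := gad_count hA hT hG (n - 4) m
  have h8 := gad_count hA hT hG (n - 8) m
  have h12 := gad_count hA hT hG (n - 12) m
  rw [show n - 4 + 4 = n by ring] at h4
  rw [show n - 8 + 4 = n - 4 by ring] at h8
  rw [show n - 12 + 4 = n - 8 by ring] at h12
  have h := gad_mode hA hT hG n m 2 two_ne_zero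
  rw [S_of_W_zero (show W A j (n - 4) m = 0 by omega), S_of_W_zero (show W A j (n - 12) m = 0 by omega),
    Nat.cast_ofNat, show (2 : ℝ) * (1 / 2) = ((1 : ℤ) : ℝ) by norm_num, ee_int] at h
  have hne : ee (2 * dd) - 1 ≠ 0 := by
    rw [sub_ne_zero]
    intro e
    obtain ⟨t, ht⟩ := (ee_eq_one_iff _).1 e
    exact dd_irrational.ne_rat ((t : ℚ) / 2) (by push_cast; linarith)
  have : (ee (2 * dd) - 1) * (S A 2 j n m - S A 2 j (n - 8) m) = 0 := by linear_combination h
  rcases mul_eq_zero.1 this with e | e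
  · exact absurd e hne
  · exact sub_eq_zero.1 e

theorem W_per (hA : Sol A) (hT : TilesSys (gad j) A) (hG : Good (gad j)) (n m : ℤ) :
    W A j (n + 8) m = W A j n m := by
  have h1 := gad_count hA hT hG n m
  have h2 := gad_count hA hT hG (n + 4) m
  rw [show n + 4 + 4 = n + 8 by ring] at h2
  omega

theorem gad_still_iter (hA : Sol A) (hT : TilesSys (gad j) A) (hG : Good (gad j)) {n m : ℤ}
    (hW : W A j n m = 2) (q : ℤ) :
    W A j (n + 8 * q) m = 2 ∧ S A 2 j (n + 8 * q) m = S A 2 j n m := by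
  induction q with
  | zero => simp [hW]
  | succ k hk =>
    obtain ⟨h1, h2⟩ := hk
    rw [show n + 8 * ((k : ℤ) + 1) = n + 8 * k + 8 by ring, W_per hA hT hG]
    refine ⟨h1, ?_⟩
    rw [gad_still hA hT hG (by rw [W_per hA hT hG]; exact h1), add_sub_cancel_right, h2]
  | pred k hk =>
    obtain ⟨h1, h2⟩ := hk
    rw [show n + 8 * (-(k : ℤ) - 1) = n + 8 * -(k : ℤ) - 8 by ring]
    have h3 := W_per hA hT hG (n + 8 * -(k : ℤ) - 8) m
    rw [sub_add_cancel] at h3
    exact ⟨by omega, by rw [← gad_still hA hT hG h1, h2]⟩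

/-- With a period, pooled sites are all of the static type or all of the moving type, as decided
by the vertical part of the period. -/
theorem gad_types (hA : Sol A) (hT : TilesSys (gad j) A) (hG : Good (gad j)) {M : ℤ} (hM : M ≠ 0)
    {τ : ℝ} (hP : ∀ n m y, (n + 8 * M, m, y + τ) ∈ A ↔ (n, m, y) ∈ A) (n m : ℤ) :
    (ee (2 * τ) = 1 → W A j n m ≠ 1) ∧ (ee (2 * τ) ≠ 1 → W A j n m = 1) := by
  have hS : ∀ k n, S A k j (n + 8 * M) m = ee (k * τ) * S A k j n m := by
    intro k n
    rw [S_eq, S_eq, Finset.mul_sum]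
    refine Finset.sum_congr rfl fun i _ => ?_
    rw [show n + 8 * M - (i.val : ℤ) = n - i.val + 8 * M by ring, V_shift hA hP]
  constructor
  · intro hτ h1
    have hne := S_ne_of_W_one h1 1
    have e1 := hS 1 n
    rw [show n + 8 * M = n + 4 * (2 * M) by ring, gad_iter hA hT hG, Nat.cast_one, one_mul] at e1
    have e2 : (-ss⁻¹) ^ (2 * M) = ee τ := mul_right_cancel₀ hne e1
    rw [(even_two_mul M).neg_zpow, inv_zpow', ss, ee_zpow] at e2
    rw [ee_two_mul, ← e2, ← ee_two_mul] at hτ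
    obtain ⟨t, ht⟩ := (ee_eq_one_iff _).1 hτ
    push_cast at ht
    refine dd_irrational.ne_rat (-(t : ℚ) / (2 * M)) ?_
    have hM' : (M : ℝ) ≠ 0 := by exact_mod_cast hM
    push_cast
    field_simp
    linarith
  · intro hτ
    have hc := gad_count hA hT hG n m
    by_contra h1
    obtain ⟨n', hn'⟩ : ∃ n', W A j n' m = 2 := by
      rcases Nat.eq_zero_or_pos (W A j n m) with h | h
      · exact ⟨n + 4, by omega⟩
      · exact ⟨n, by omega⟩
    have h2 : S A 1 j n' m = 0 := by
      have h4 := gad_count hA hT hG n' m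
      have := gad_step hA hT hG n' m
      rw [S_of_W_zero (show W A j (n' + 4) m = 0 by omega)] at this
      exact (mul_eq_zero.1 this.symm).resolve_left (neg_ne_zero.2 (inv_ne_zero (ee_ne_zero _)))
    have h3 := S_two_ne hn' h2
    have h5 := (gad_still_iter hA hT hG hn' M).2
    rw [hS 2 n', Nat.cast_ofNat] at h5
    exact hτ ((mul_eq_right₀ h3).1 h5)

end Vale.Agent.P043.R3
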