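import Vale.Agent.P043.R3.Exists

/-!
# What a solution of the system satisfies

It has the periods `(0, 4, 0)` and `(0, 0, 1)`, so it is given by finite sets on a circle, and
each equation becomes one linear relation for each Fourier mode of these sets.
-/

namespace Vale.Agent.P043.R3

open MeasureTheory Set

/-- A property holding almost everywhere holds somewhere in every interval. -/
theorem exists_mem_Ioo {P : ℝ → Prop} (h : ∀ᵐ y : ℝ, P y) {a b : ℝ} (hab : a < b) :
    ∃ y ∈ Ioo a b, P y := by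
  by_contra hc
  push Not at hc
  have h0 : volume (Ioo a b) = 0 := measure_mono_null (fun y hy => hc y hy) (ae_iff.1 h)
  rw [Real.volume_Ioo, ENNReal.ofReal_eq_zero] at h0
  linarith

variable {A : Set Pt}

theorem sep (hA : Sol A) {n m : ℤ} {x x' : ℝ} (h : (n, m, x) ∈ A) (h' : (n, m, x') ∈ A)
    (hd : |x - x'| < 1 / 2) : x = x' := by
  rw [abs_lt] at hd
  obtain ⟨y, hy, hu⟩ := exists_mem_Ioo (hA.g1 n m)
    (show max x x' < min x x' + 1 / 2 by rcases le_total x x' with e | e <;> simp [e] <;> linarith)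
  have hmem : hp (0, 0) ∈ hal := Finset.mem_image_of_mem _ (Finset.mem_univ _)
  have hc : ∀ z, max x x' = max x x' → (z = x ∨ z = x') → Covers (n, m, z) (hp (0, 0)) n m y := by
    intro z _ hz
    refine ⟨by simp [R3.hp], by simp [R3.hp], ?_⟩
    have h1 := hy.1
    have h2 := hy.2
    simp only [max_lt_iff] at h1
    rw [← sub_lt_iff_lt_add, lt_min_iff] at h2
    simp only [R3.hp, bit, sv, mem_Ico]
    push_cast
    rcases hz with rfl | rfl <;> constructor <;> norm_num <;> linarith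
  have := hu.unique (y₁ := ((n, m, x), hp (0, 0))) (y₂ := ((n, m, x'), hp (0, 0)))
    ⟨h, hmem, hc x rfl (Or.inl rfl)⟩ ⟨h', hmem, hc x' rfl (Or.inr rfl)⟩
  simp only [Prod.mk.injEq] at this
  exact this.1.2.2

/-- Unions of short intervals at separated points determine the points. -/
theorem subset_of_ae {Y Z : Set ℝ} (hY : ∀ a ∈ Y, ∀ b ∈ Y, |a - b| < 1 / 2 → a = b)
    (hZ : ∀ a ∈ Z, ∀ b ∈ Z, |a - b| < 1 / 2 → a = b)
    (h : ∀ᵐ y : ℝ, (∃ a ∈ Y, y - a ∈ Ico 0 dd) ↔ ∃ a ∈ Z, y - a ∈ Ico 0 dd) : Y ⊆ Z := by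
  intro a ha
  have := dd_pos
  have := dd_lt
  obtain ⟨y, hy, he⟩ := exists_mem_Ioo h (show a < a + dd by linarith)
  obtain ⟨b, hb, hb'⟩ := he.1 ⟨a, ha, by constructor <;> linarith [hy.1, hy.2]⟩
  rcases lt_trichotomy b a with hlt | heq | hgt
  · exfalso
    obtain ⟨u, hu, he'⟩ := exists_mem_Ioo h
      (show max b (a - (1 / 2 - dd)) < a from max_lt hlt (by linarith))
    obtain ⟨c, hc, hc'⟩ := he'.2 ⟨b, hb, by
      constructor <;> linarith [le_max_left b (a - (1 / 2 - dd)), hu.1, hu.2, hy.1, hb'.2]⟩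
    have : c = a := hY c hc a ha (by
      rw [abs_lt]
      constructor <;> linarith [le_max_right b (a - (1 / 2 - dd)), hu.1, hu.2, hc'.1, hc'.2])
    linarith [hu.2, hc'.1]
  · exact heq ▸ hb
  · exfalso
    have hbd : b < a + dd := by linarith [hb'.1, hy.2]
    obtain ⟨u, hu, he'⟩ := exists_mem_Ioo h hgt
    obtain ⟨c, hc, hc'⟩ := he'.1 ⟨a, ha, by constructor <;> linarith [hu.1, hu.2]⟩
    have : c = b := hZ c hc b hb (by
      rw [abs_lt]
      constructor <;> linarith [hu.1, hu.2, hc'.1, hc'.2])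
    linarith [hu.2, hc'.1]

/-- A moved piece gives a period. -/
theorem period_of_mov (hA : Sol A) {dm dq : ℤ} (hne : ((0 : ℤ), dm, ((0 : ℤ), dq), ((8 : ℤ), (0 : ℤ)))
      ∉ (gad 2).erase (gp 2 (0, 0))) (hm : TilesSys (mov dm dq) A) (n m : ℤ) (y : ℝ) :
    (n, m, y) ∈ A ↔ (n, m - dm, y - dq / 2) ∈ A := by
  classical
  set q : Piece := (0, dm, (0, dq), (8, 0))
  set c : ℝ := (dq : ℝ) / 2
  have hq0 : gp 2 (0, 0) ∈ gad 2 := Finset.mem_image_of_mem _ (Finset.mem_univ _)
  have key : ∀ {E : Finset Piece} {r : Piece}, r ∈ E → ∀ {y' : ℝ},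
      (∃! w : Pt × Piece, w.1 ∈ A ∧ w.2 ∈ E ∧ Covers w.1 w.2 n m y') →
      ((∃ a ∈ A, Covers a r n m y') ↔
        ¬ ∃ a ∈ A, ∃ r' ∈ E.erase r, Covers a r' n m y') := by
    intro E r hr y' hu
    constructor
    · rintro ⟨a, ha, hc⟩ ⟨a', ha', r', hr', hc'⟩
      have := hu.unique (y₁ := (a, r)) (y₂ := (a', r')) ⟨ha, hr, hc⟩
        ⟨ha', Finset.mem_of_mem_erase hr', hc'⟩
      simp only [Prod.mk.injEq] at this
      exact (Finset.ne_of_mem_erase hr') this.2.symm
    · intro hno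
      obtain ⟨⟨a, r'⟩, ha, hr', hc⟩ := hu.exists
      by_cases e : r' = r
      · exact ⟨a, ha, e ▸ hc⟩
      · exact (hno ⟨a, ha, r', Finset.mem_erase.2 ⟨e, hr'⟩, hc⟩).elim
  set Y : Set ℝ := {x | (n, m, x) ∈ A}
  set Z : Set ℝ := {x | (n, m - dm, x - c) ∈ A}
  have hY : ∀ a ∈ Y, ∀ b ∈ Y, |a - b| < 1 / 2 → a = b := fun a ha b hb h => sep hA ha hb h
  have hZ : ∀ a ∈ Z, ∀ b ∈ Z, |a - b| < 1 / 2 → a = b := fun a ha b hb h => by
    have := sep hA ha hb (by rwa [sub_sub_sub_cancel_right])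
    linarith
  have hae : ∀ᵐ u : ℝ, (∃ a ∈ Y, u - a ∈ Ico 0 dd) ↔ ∃ a ∈ Z, u - a ∈ Ico 0 dd := by
    filter_upwards [hA.g2 n m, hm n m] with u hu1 hu2
    have h1 := key hq0 hu1
    have h2 := key (Finset.mem_insert_self q _) hu2
    rw [Finset.erase_insert hne] at h2
    have e := h1.trans h2.symm
    constructor
    · rintro ⟨a, ha, hI⟩
      obtain ⟨⟨a1, a2, a3⟩, ha', ⟨e1, e2, hI'⟩⟩ := e.1 ⟨(n, m, a), ha, by simp [gp], by simp [gp],
        by simpa [gp, sv] using hI⟩
      simp only [q] at e1 e2 hI'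
      obtain rfl : a1 = n := by omega
      obtain rfl : a2 = m - dm := by omega
      refine ⟨a3 + c, by simpa [Z] using ha', ?_⟩
      simpa [sv, c, sub_add_eq_sub_sub] using hI'
    · rintro ⟨a, ha, hI⟩
      obtain ⟨⟨a1, a2, a3⟩, ha', ⟨e1, e2, hI'⟩⟩ := e.2 ⟨(n, m - dm, a - c), ha, by simp [q],
        by simp [q], by
          simp only [q, sv, c, mem_Ico] at hI ⊢; push_cast
          constructor <;> linarith [hI.1, hI.2]⟩
      simp [gp] at e1 e2
      subst e1 e2
      exact ⟨a3, ha', by simpa [gp, sv] using hI'⟩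
  exact ⟨fun h => subset_of_ae hY hZ hae h, fun h => subset_of_ae hZ hY
    (hae.mono fun _ hu => hu.symm) h⟩

theorem per_m (hA : Sol A) (n m : ℤ) (y : ℝ) : (n, m, y) ∈ A ↔ (n, m - 4, y) ∈ A := by
  simpa using period_of_mov hA (by decide) hA.mz n m y

theorem per_y (hA : Sol A) (n m : ℤ) (y : ℝ) : (n, m, y) ∈ A ↔ (n, m, y - 1) ∈ A := by
  simpa using period_of_mov hA (by decide) hA.my n m y

theorem per_y_int (hA : Sol A) (n m : ℤ) (y : ℝ) (t : ℤ) :
    (n, m, y) ∈ A ↔ (n, m, y + t) ∈ A := by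
  induction t with
  | zero => simp
  | succ k hk => rw [hk, per_y hA n m (y + ((k : ℤ) + 1 : ℤ))]; push_cast; ring_nf
  | pred k hk => rw [hk, per_y hA n m (y + (-(k : ℤ) : ℤ))]; push_cast; ring_nf

/-- The points above a site, as a set. -/
def siteSet (A : Set Pt) (n m : ℤ) : Set ℝ := {x | (n, m, x) ∈ A ∧ x ∈ Ico (0 : ℝ) 1}

theorem siteSet_finite (hA : Sol A) (n m : ℤ) : (siteSet A n m).Finite := by
  refine Set.Finite.of_injOn (f := fun x : ℝ => decide (x < 1 / 2)) (t := univ)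
    (fun _ _ => mem_univ _) ?_ finite_univ
  intro a ha b hb e
  refine sep hA ha.1 hb.1 ?_
  simp only [decide_eq_decide] at e
  obtain ⟨ha0, ha1⟩ := ha.2
  obtain ⟨hb0, hb1⟩ := hb.2
  rw [abs_lt]
  by_cases h : a < 1 / 2
  · have := e.1 h; constructor <;> linarith
  · have hb' : ¬ b < 1 / 2 := fun hb' => h (e.2 hb')
    rw [not_lt] at h hb'
    constructor <;> linarith

open Classical in
/-- The points above a site in the fundamental interval. -/
noncomputable def pts (A : Set Pt) (n m : ℤ) : Finset ℝ :=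
  if h : (siteSet A n m).Finite then h.toFinset else ∅

theorem mem_pts (hA : Sol A) {n m : ℤ} {x : ℝ} :
    x ∈ pts A n m ↔ (n, m, x) ∈ A ∧ x ∈ Ico (0 : ℝ) 1 := by
  rw [pts, dif_pos (siteSet_finite hA n m), Set.Finite.mem_toFinset]; rfl

theorem fract_mem_pts (hA : Sol A) {n m : ℤ} {x : ℝ} (h : (n, m, x) ∈ A) :
    Int.fract x ∈ pts A n m := by
  refine (mem_pts hA).2 ⟨?_, Int.fract_nonneg x, Int.fract_lt_one x⟩
  have := (per_y_int hA n m x (-⌊x⌋)).1 h
  rwa [Int.cast_neg, ← sub_eq_add_neg] at this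

theorem pts_per (hA : Sol A) (n m : ℤ) : pts A n (m + 4) = pts A n m := by
  ext x
  rw [mem_pts hA, mem_pts hA, per_m hA n (m + 4) x, add_sub_cancel_right]

open Classical in
theorem ae_count (hA : Sol A) {E : Finset Piece} (hT : TilesSys E A) (hG : Good E) (n m : ℤ) :
    ∀ᵐ y : ℝ, ((E.sigma fun p => pts A (n - p.1) (m - p.2.1)).filter fun w =>
      Int.fract (y - (w.2 + sv w.1.2.2.1)) < sv w.1.2.2.2).card = 1 := by
  filter_upwards [hT n m] with y hy
  obtain ⟨⟨⟨a1, a2, a3⟩, p⟩, ⟨ha, hp, e1, e2, hI⟩, hu⟩ := hy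
  simp only at e1 e2 hI ha hp
  refine Finset.card_eq_one.2 ⟨⟨p, Int.fract a3⟩, Finset.eq_singleton_iff_unique_mem.2 ⟨?_, ?_⟩⟩
  · simp only [Finset.mem_filter, Finset.mem_sigma]
    refine ⟨⟨hp, ?_⟩, ?_⟩
    · rw [show n - p.1 = a1 by omega, show m - p.2.1 = a2 by omega]
      exact fract_mem_pts hA ha
    · have hlt := (sv_len (hG.1 p hp)).2
      rw [show y - (Int.fract a3 + sv p.2.2.1) = (y - a3 - sv p.2.2.1) + (⌊a3⌋ : ℤ) by
        rw [Int.fract]; ring, Int.fract_add_intCast,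
        Int.fract_eq_self.2 ⟨hI.1, hI.2.trans hlt⟩]
      exact hI.2
  · rintro ⟨p', x⟩ hw
    simp only [Finset.mem_filter, Finset.mem_sigma] at hw
    obtain ⟨⟨hp', hx⟩, hlt⟩ := hw
    obtain ⟨hxA, hx01⟩ := (mem_pts hA).1 hx
    set t := ⌊y - (x + sv p'.2.2.1)⌋ with ht
    have h := hu ((n - p'.1, m - p'.2.1, x + t), p') ⟨(per_y_int hA _ _ x t).1 hxA, hp',
      sub_add_cancel _ _, sub_add_cancel _ _, by
        show y - (x + t) - sv p'.2.2.1 ∈ Ico _ _
        rw [show y - (x + t) - sv p'.2.2.1 = Int.fract (y - (x + sv p'.2.2.1)) by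
          rw [Int.fract, ht]; ring]
        exact ⟨Int.fract_nonneg _, hlt⟩⟩
    simp only [Prod.mk.injEq] at h
    obtain ⟨⟨-, -, h3⟩, rfl⟩ := h
    rw [← h3, Int.fract_add_intCast, Int.fract_eq_self.2 hx01]

open Classical in
theorem arc_integral {g : ℝ → ℂ} (hgp : Function.Periodic g 1) {L : ℝ}
    (hL0 : 0 < L) (hL1 : L < 1) (c : ℝ) :
    ∫ y in (0 : ℝ)..1, ({u | Int.fract (u - c) < L}.indicator g) y = ∫ y in c..(c + L), g y := by
  set f := {u | Int.fract (u - c) < L}.indicator g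
  have hper : Function.Periodic f 1 := by
    intro u
    simp only [f, Set.indicator_apply, mem_ofPred_eq, hgp u,
      show u + 1 - c = u - c + 1 by ring, Int.fract_add_one]
  have h0 := hper.intervalIntegral_add_eq 0 c
  rw [zero_add] at h0
  rw [h0, intervalIntegral.integral_of_le (by linarith), intervalIntegral.integral_of_le (by linarith)]
  have hS : MeasurableSet {u : ℝ | Int.fract (u - c) < L} :=
    measurableSet_lt (measurable_fract.comp (measurable_id.sub_const c)) measurable_const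
  simp only [f]
  rw [setIntegral_indicator hS]
  refine setIntegral_congr_set ?_
  filter_upwards [Measure.ae_ne volume (c + L), Measure.ae_ne volume (c + 1)] with u h2 h1
  refine propext ⟨fun ⟨⟨hu1, hu2⟩, hu3⟩ => ?_, fun ⟨hu1, hu2⟩ => ?_⟩
  · have e : Int.fract (u - c) = u - c :=
      Int.fract_eq_self.2 ⟨by linarith, by
        have := lt_of_le_of_ne hu2 h1; linarith⟩
    have hu3' : Int.fract (u - c) < L := hu3
    rw [e] at hu3'
    exact ⟨hu1, by linarith⟩
  · refine ⟨⟨hu1, by linarith⟩, ?_⟩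
    show Int.fract (u - c) < L
    have := lt_of_le_of_ne hu2 h2
    rw [Int.fract_eq_self.2 ⟨by linarith, by linarith⟩]
    linarith

open Classical in
/-- Integration of an equation against a periodic function. -/
theorem integ_eq (hA : Sol A) {E : Finset Piece} (hT : TilesSys E A) (hG : Good E) (n m : ℤ)
    {g : ℝ → ℂ} (hg : Continuous g) (hgp : Function.Periodic g 1) :
    ∑ p ∈ E, ∑ x ∈ pts A (n - p.1) (m - p.2.1),
      ∫ y in (x + sv p.2.2.1)..(x + sv p.2.2.1 + sv p.2.2.2), g y = ∫ y in (0 : ℝ)..1, g y := by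
  rw [← Finset.sum_sigma E _ (fun w : (_ : Piece) × ℝ =>
    ∫ y in (w.2 + sv w.1.2.2.1)..(w.2 + sv w.1.2.2.1 + sv w.1.2.2.2), g y)]
  rw [Finset.sum_congr rfl fun w hw => (arc_integral hgp (sv_len (hG.1 _ (Finset.mem_sigma.1 hw).1)).1
    (sv_len (hG.1 _ (Finset.mem_sigma.1 hw).1)).2 (w.2 + sv w.1.2.2.1)).symm]
  rw [← intervalIntegral.integral_finsetSum fun w _ => ?_]
  · refine intervalIntegral.integral_congr_ae ((ae_count hA hT hG n m).mono fun y hy _ => ?_)
    simp only [Set.indicator_apply, mem_ofPred_eq, ← Finset.sum_filter, Finset.sum_const, hy, one_smul]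
  · rw [intervalIntegrable_iff]
    exact (hg.intervalIntegrable 0 1).def'.indicator
      (measurableSet_lt (measurable_fract.comp (measurable_id.sub_const _)) measurable_const)

/-- The function `x ↦ exp (2 π i x)`. -/
noncomputable def ee (x : ℝ) : ℂ := Complex.exp (((2 * Real.pi * x : ℝ) : ℂ) * Complex.I)

theorem ee_add (x y : ℝ) : ee (x + y) = ee x * ee y := by
  simp only [ee, ← Complex.exp_add]; congr 1; push_cast; ring

theorem ee_zero : ee 0 = 1 := by simp [ee]

theorem ee_ne_zero (x : ℝ) : ee x ≠ 0 := Complex.exp_ne_zero _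

theorem norm_ee (x : ℝ) : ‖ee x‖ = 1 := Complex.norm_exp_ofReal_mul_I _

theorem ee_eq_one_iff (x : ℝ) : ee x = 1 ↔ ∃ t : ℤ, x = t := by
  rw [ee, Complex.exp_eq_one_iff]
  constructor
  · rintro ⟨t, ht⟩
    refine ⟨t, ?_⟩
    have h := congrArg Complex.im ht
    simp at h
    nlinarith [Real.pi_pos, h]
  · rintro ⟨t, rfl⟩
    exact ⟨t, by push_cast; ring⟩

theorem ee_int (t : ℤ) : ee t = 1 := (ee_eq_one_iff _).2 ⟨t, rfl⟩

/-- The Fourier coefficient of mode `k` of a site. -/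
noncomputable def V (A : Set Pt) (k : ℕ) (n m : ℤ) : ℂ := ∑ x ∈ pts A n m, ee (k * x)

/-- The number of points of a site. -/
noncomputable def cnt (A : Set Pt) (n m : ℤ) : ℕ := (pts A n m).card

theorem mode_zero (hA : Sol A) {E : Finset Piece} (hT : TilesSys E A) (hG : Good E) (n m : ℤ) :
    ∑ p ∈ E, (cnt A (n - p.1) (m - p.2.1) : ℝ) * sv p.2.2.2 = 1 := by
  have h := integ_eq hA hT hG n m (g := fun _ => (1 : ℂ)) continuous_const (fun _ => rfl)
  simp only [intervalIntegral.integral_const, add_sub_cancel_left, sub_zero, one_smul,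
    Complex.real_smul, mul_one, Finset.sum_const, nsmul_eq_mul] at h
  exact_mod_cast h

theorem mode_eq (hA : Sol A) {E : Finset Piece} (hT : TilesSys E A) (hG : Good E) (n m : ℤ)
    {k : ℕ} (hk : k ≠ 0) :
    ∑ p ∈ E, (ee (k * (sv p.2.2.1 + sv p.2.2.2)) - ee (k * sv p.2.2.1))
      * V A k (n - p.1) (m - p.2.1) = 0 := by
  set c : ℂ := 2 * Real.pi * k * Complex.I with hc
  have hc0 : c ≠ 0 := by simp [hc, hk, Real.pi_ne_zero]
  have hint : ∀ a b : ℝ, ∫ y in a..b, ee (k * y) = (ee (k * b) - ee (k * a)) / c := by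
    intro a b
    have e : ∀ y : ℝ, ee (k * y) = Complex.exp (c * y) := fun y => by
      simp only [ee, hc]; congr 1; push_cast; ring
    simp only [e]
    exact integral_exp_mul_complex hc0
  have h := integ_eq hA hT hG n m (g := fun y => ee (k * y))
    (by unfold ee; fun_prop)
    (fun y => by
      show ee (k * (y + 1)) = ee (k * y)
      rw [show (k : ℝ) * (y + 1) = k * y + ((k : ℤ) : ℝ) by push_cast; ring, ee_add, ee_int, mul_one])
  rw [hint 0 1, show ee ((k : ℝ) * 1) = 1 by rw [mul_one]; exact_mod_cast ee_int k, mul_zero, ee_zero,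
    sub_self, zero_div] at h
  simp only [hint, ← Finset.sum_div] at h
  rw [div_eq_zero_iff, or_iff_left hc0] at h
  rw [← h]
  refine Finset.sum_congr rfl fun p _ => ?_
  rw [V, Finset.mul_sum]
  refine Finset.sum_congr rfl fun x _ => ?_
  simp only [mul_add, ee_add]
  ring

/-- A period of the solution acts on the Fourier coefficients. -/
theorem V_shift (hA : Sol A) {P : ℤ} {τ : ℝ}
    (hP : ∀ n m y, (n + P, m, y + τ) ∈ A ↔ (n, m, y) ∈ A) (k : ℕ) (n m : ℤ) :
    V A k (n + P) m = ee (k * τ) * V A k n m := by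
  classical
  simp only [V, Finset.mul_sum]
  refine (Finset.sum_bij' (fun x _ => Int.fract (x + τ)) (fun x _ => Int.fract (x - τ)) ?_ ?_ ?_ ?_
    ?_).symm
  · intro x hx
    exact fract_mem_pts hA ((hP n m x).2 ((mem_pts hA).1 hx).1)
  · intro x hx
    refine fract_mem_pts hA ((hP n m (x - τ)).1 ?_)
    rw [sub_add_cancel]
    exact ((mem_pts hA).1 hx).1
  · intro x hx
    show Int.fract (Int.fract (x + τ) - τ) = x
    rw [show Int.fract (x + τ) - τ = x - (⌊x + τ⌋ : ℤ) by rw [Int.fract]; ring, Int.fract_sub_intCast,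
      Int.fract_eq_self.2 ((mem_pts hA).1 hx).2]
  · intro x hx
    show Int.fract (Int.fract (x - τ) + τ) = x
    rw [show Int.fract (x - τ) + τ = x - (⌊x - τ⌋ : ℤ) by rw [Int.fract]; ring, Int.fract_sub_intCast,
      Int.fract_eq_self.2 ((mem_pts hA).1 hx).2]
  · intro x _
    show ee (k * τ) * ee (k * x) = ee (k * Int.fract (x + τ))
    rw [Int.fract, mul_sub, show (k : ℝ) * (x + τ) - k * (⌊x + τ⌋ : ℤ)
      = k * τ + k * x + ((-((k : ℤ) * ⌊x + τ⌋) : ℤ) : ℝ) by push_cast; ring, ee_add, ee_int,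
      ee_add, mul_one]

end Vale.Agent.P043.R3
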