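import Vale.Agent.P043.R3.Gadget

/-!
# The system has no periodic solution

A period makes all sites doubled or all sites simple, and either possibility contradicts a finite
check.
-/

namespace Vale.Agent.P043.R3

open Finset

theorem pick {N c : ℕ} (hc : 0 < c) (f : Fin N → ℕ) (hv : ∀ a, f a = 0 ∨ f a = c)
    (hs : ∑ a, f a = c) : ∃ a, ∀ b, f b = if b = a then c else 0 := by
  obtain ⟨a, -, ha⟩ : ∃ a ∈ Finset.univ, f a ≠ 0 :=
    Finset.exists_ne_zero_of_sum_ne_zero (by omega)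
  refine ⟨a, fun b => ?_⟩
  have hfa : f a = c := (hv a).resolve_left ha
  split_ifs with h
  · rw [h, hfa]
  · have := Finset.sum_le_sum_of_subset (f := f) (Finset.subset_univ {b, a})
    rw [Finset.sum_pair h] at this
    rcases hv b with e | e <;> omega

set_option synthInstance.maxHeartbeats 400000 in
set_option synthInstance.maxSize 5000 in
set_option maxRecDepth 100000 in
/-- No arrangement of doubled sites. -/
theorem fin_double : ∀ a0 a1 : Fin 8,
    ¬ (4 : ℤ) ∣ ((0 : ℤ) - a0.val) - (1 - a1.val) →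
    ∀ a2 : Fin 8, ¬ (4 : ℤ) ∣ ((0 : ℤ) - a0.val) - (2 - a2.val) →
      ¬ (4 : ℤ) ∣ ((1 : ℤ) - a1.val) - (2 - a2.val) →
    ∀ a3 : Fin 8, ¬ (4 : ℤ) ∣ ((0 : ℤ) - a0.val) - (3 - a3.val) →
      ¬ (4 : ℤ) ∣ ((1 : ℤ) - a1.val) - (3 - a3.val) →
      ¬ (4 : ℤ) ∣ ((2 : ℤ) - a2.val) - (3 - a3.val) →
    ∃ r : Fin 8, (∑ q : Fin 4, ((if ![a0, a1, a2, a3] q = r then 1 else 0)
      + if ![a0, a1, a2, a3] q = r - 2 then 1 else 0 : ℕ)) ≠ 1 := by decide +kernel

/-- The layer through which the class `q` reaches `r`. -/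
def lay (a r : Fin 4) : Fin 2 := if a = r then 0 else 1

set_option synthInstance.maxHeartbeats 400000 in
set_option synthInstance.maxSize 5000 in
set_option maxRecDepth 100000 in
/-- No arrangement of simple sites. -/
theorem fin_simple : ∀ a0 a1 : Fin 4,
    ¬ (4 : ℤ) ∣ ((0 : ℤ) - a0.val) - (1 - a1.val) →
    ∀ a2 : Fin 4, ¬ (4 : ℤ) ∣ ((0 : ℤ) - a0.val) - (2 - a2.val) →
      ¬ (4 : ℤ) ∣ ((1 : ℤ) - a1.val) - (2 - a2.val) →
    ∀ a3 : Fin 4, ¬ (4 : ℤ) ∣ ((0 : ℤ) - a0.val) - (3 - a3.val) →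
      ¬ (4 : ℤ) ∣ ((1 : ℤ) - a1.val) - (3 - a3.val) →
      ¬ (4 : ℤ) ∣ ((2 : ℤ) - a2.val) - (3 - a3.val) →
    (∀ r : Fin 4, (∑ q : Fin 4, ((if ![a0, a1, a2, a3] q = r then 1 else 0)
      + if ![a0, a1, a2, a3] q = r - 2 then 1 else 0 : ℕ)) = 2) →
    ∃ r q q' : Fin 4, q ≠ q' ∧
      (∀ u : Fin 4, (![a0, a1, a2, a3] u = r ∨ ![a0, a1, a2, a3] u = r - 2) ↔ (u = q ∨ u = q')) ∧
      ∃ s : Fin 4,
        (bit (lay (![a0, a1, a2, a3] q) r) (s - 2 * r - q)
          + bit (lay (![a0, a1, a2, a3] q') r) (s - 2 * r - q')) % 2 ≠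
        (bit (lay (![a0, a1, a2, a3] q) r) (0 - 2 * r - q)
          + bit (lay (![a0, a1, a2, a3] q') r) (0 - 2 * r - q')) % 2 := by decide +kernel

/-- The sign of a bit. -/
noncomputable def sg (i : Fin 2) (j : Fin 4) : ℂ := if bit i j = 0 then 1 else -1

theorem bit_cases (i : Fin 2) (j : Fin 4) : bit i j = 0 ∨ bit i j = 1 := by
  revert i j; decide

theorem hp_inj : Function.Injective hp := by
  rintro ⟨i, j⟩ ⟨i', j'⟩ h
  have h1 := congrArg Prod.fst h
  have h2 := congrArg (fun p : Piece => p.2.1) h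
  simp only [hp] at h1 h2
  simp only [Prod.mk.injEq]
  constructor <;> ext <;> omega

theorem sum_hal {M : Type} [AddCommMonoid M] (F : Piece → M) :
    ∑ p ∈ hal, F p = ∑ i : Fin 2, ∑ j : Fin 4, F (hp (i, j)) := by
  rw [hal, Finset.sum_image fun _ _ _ _ h => hp_inj h, Fintype.sum_prod_type]

variable {A : Set Pt}

theorem hal_count (hA : Sol A) (n : ℤ) :
    ∑ b : Fin 4, cnt A n b.val + ∑ b : Fin 4, cnt A (n - 2) b.val = 2 := by
  have h := mode_zero hA hA.g1 good_hal n 3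
  rw [sum_hal] at h
  simp [Fin.sum_univ_two, Fin.sum_univ_four, hp, sv] at h
  simp only [Fin.sum_univ_four]
  norm_num at h ⊢
  have : ((cnt A n 0 + cnt A n 1 + cnt A n 2 + cnt A n 3
      + (cnt A (n - 2) 0 + cnt A (n - 2) 1 + cnt A (n - 2) 2 + cnt A (n - 2) 3) : ℕ) : ℝ) = 2 := by
    push_cast; linarith
  exact_mod_cast this

/-- Sums over a row, indexed by the classes. -/
theorem row_sum (hA : Sol A) (n : ℤ) :
    ∑ b : Fin 4, cnt A n b.val = ∑ q : Fin 4, cnt A n (q.val + 2 * n) := by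
  simp only [Fin.sum_univ_four]
  norm_num
  rcases Int.even_or_odd n with ⟨t, rfl⟩ | ⟨t, rfl⟩
  · rw [cnt_congr hA (t + t) (m := 0) (m' := 2 * (t + t)) (by omega),
      cnt_congr hA (t + t) (m := 1) (m' := 1 + 2 * (t + t)) (by omega),
      cnt_congr hA (t + t) (m := 2) (m' := 2 + 2 * (t + t)) (by omega),
      cnt_congr hA (t + t) (m := 3) (m' := 3 + 2 * (t + t)) (by omega)]
  · rw [cnt_congr hA (2 * t + 1) (m := 2) (m' := 2 * (2 * t + 1)) (by omega),
      cnt_congr hA (2 * t + 1) (m := 3) (m' := 1 + 2 * (2 * t + 1)) (by omega),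
      cnt_congr hA (2 * t + 1) (m := 0) (m' := 2 + 2 * (2 * t + 1)) (by omega),
      cnt_congr hA (2 * t + 1) (m := 1) (m' := 3 + 2 * (2 * t + 1)) (by omega)]
    omega

theorem per_mul {N : ℤ} {w : ℤ → ℕ} (h : ∀ n, w (n + N) = w n) (n t : ℤ) :
    w (n + t * N) = w n := by
  induction t with
  | zero => simp
  | succ k hk => rw [show n + ((k : ℤ) + 1) * N = n + k * N + N by ring, h, hk]
  | pred k hk =>
    rw [← hk, show n + -(k : ℤ) * N = n + (-(k : ℤ) - 1) * N + N by ring, h]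

/-- The equalities between neighbouring windows. -/
theorem window_shift (hA : Sol A) (j n m : ℤ) :
    W A j (n + 4) m + cnt A n m = W A j (n + 3) (m + 3 * j) + cnt A (n + 4) m := by
  simp only [W_eq, Fin.sum_univ_four]
  norm_num
  ring_nf
  rw [cnt_congr hA (3 + n) (m := m - j) (m' := m + j * 3) ⟨j, by ring⟩,
    cnt_congr hA (2 + n) (m := m - j * 2) (m' := m + j * 2) ⟨j, by ring⟩,
    cnt_congr hA (1 + n) (m := m - j * 3) (m' := m + j) ⟨j, by ring⟩]
  ring

/-- Common part of both cases: one site per class and the injectivity from the second gadget. -/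
theorem choice (hA : Sol A) {N c : ℕ} (hc : 0 < c) (hN : 2 ∣ N)
    (hper : ∀ n m, cnt A (n + (N : ℤ)) m = cnt A n m) (hv : ∀ n m, cnt A n m = 0 ∨ cnt A n m = c)
    (h2 : ∀ q : ℤ, ∑ a : Fin N, cnt A a.val (q + 2 * a.val) = c)
    (h3 : ∀ q : ℤ, ∑ a : Fin N, cnt A a.val (q + 3 * a.val) = c) :
    ∃ α : Fin 4 → Fin N, (∀ (n m : ℤ) (a : Fin N) (q : Fin 4), (N : ℤ) ∣ n - a.val →
        (4 : ℤ) ∣ m - (q.val + 2 * n) → cnt A n m = if α q = a then c else 0) ∧
      ∀ q q' : Fin 4, q ≠ q' →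
        ¬ (4 : ℤ) ∣ ((q.val : ℤ) - (α q).val) - ((q'.val : ℤ) - (α q').val) := by
  choose α hα using fun q : Fin 4 =>
    pick hc (fun a : Fin N => cnt A a.val ((q.val : ℤ) + 2 * a.val)) (fun _ => hv _ _) (h2 q.val)
  have hN' : (2 : ℤ) ∣ N := by exact_mod_cast hN
  have key : ∀ (n m : ℤ) (a : Fin N) (q : Fin 4), (N : ℤ) ∣ n - a.val →
      (4 : ℤ) ∣ m - (q.val + 2 * n) → cnt A n m = if α q = a then c else 0 := by
    intro n m a q ⟨t, ht⟩ hm
    rw [show n = (a.val : ℤ) + t * N by linarith,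
      per_mul (w := fun u => cnt A u m) (fun u => hper u m) (a.val : ℤ) t,
      cnt_congr hA _ (m := (q.val : ℤ) + 2 * a.val) (m' := m), hα q a]
    · simp only [eq_comm]
    · obtain ⟨u, hu⟩ := hm
      obtain ⟨v, hv'⟩ := hN'
      exact ⟨u + v * t, by linear_combination hu + 2 * ht + 2 * t * hv'⟩
  refine ⟨α, key, fun q q' hne hdvd => ?_⟩
  have e : ∀ u : Fin 4, (4 : ℤ) ∣ ((q.val : ℤ) - (α q).val) - ((u.val : ℤ) - (α u).val) →
      cnt A (α u).val (((q.val : ℤ) - (α q).val) + 3 * (α u).val) = c := by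
    intro u hu
    rw [key _ _ (α u) u (by simp), if_pos rfl]
    obtain ⟨t, ht⟩ := hu
    exact ⟨t, by linarith⟩
  have hne' : α q ≠ α q' := by
    intro heq
    rw [heq] at hdvd
    apply hne
    have := q.2; have := q'.2
    ext; omega
  have hle := Finset.sum_le_sum_of_subset
    (f := fun a : Fin N => cnt A a.val (((q.val : ℤ) - (α q).val) + 3 * a.val))
    (Finset.subset_univ {α q, α q'})
  rw [Finset.sum_pair hne', h3 _, e q (by simp), e q' hdvd] at hle
  omega

theorem row_choice (hA : Sol A) {N c : ℕ} {α : Fin 4 → Fin N}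
    (key : ∀ (n m : ℤ) (a : Fin N) (q : Fin 4), (N : ℤ) ∣ n - a.val →
        (4 : ℤ) ∣ m - (q.val + 2 * n) → cnt A n m = if α q = a then c else 0)
    (n : ℤ) (a : Fin N) (ha : (N : ℤ) ∣ n - a.val) :
    ∑ b : Fin 4, cnt A n b.val = ∑ q : Fin 4, if α q = a then c else 0 := by
  rw [row_sum hA n]
  exact Finset.sum_congr rfl fun q _ => key n _ a q ha (by simp)

theorem no_double (hA : Sol A) (h : ∀ j, (j = 2 ∨ j = 3) → ∀ n m, W A j n m ≠ 1) : False := by
  have hg : ∀ j, (j = 2 ∨ j = 3) → ∀ n m, W A j n m + W A j (n + 4) m = 2 := by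
    rintro j (rfl | rfl)
    · exact gad_count hA hA.g2 good_gad2
    · exact gad_count hA hA.g3 good_gad3
  have hv : ∀ n m, cnt A n m = 0 ∨ cnt A n m = 2 := by
    intro n m
    have h1 := h 2 (Or.inl rfl) n m
    have h2 := h 2 (Or.inl rfl) (n + 3) (m + 3 * 2)
    have h3 := hg 2 (Or.inl rfl) n m
    have h4 := hg 2 (Or.inl rfl) (n + 3) (m + 3 * 2)
    have h5 := window_shift hA 2 n m
    simp only [W_eq, Fin.sum_univ_four] at h1 h2 h3 h4 h5
    norm_num at h1 h2 h3 h4 h5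
    ring_nf at h1 h2 h3 h4 h5 ⊢
    omega
  have hs : ∀ j, (j = 2 ∨ j = 3) → ∀ q : ℤ, ∑ a : Fin 8, cnt A a.val (q + j * a.val) = 2 := by
    intro j hj q
    have h0 := hg j hj 3 (q + 3 * j)
    simp only [W_eq, Fin.sum_univ_four] at h0
    simp only [Fin.sum_univ_eight]
    norm_num at h0 ⊢
    ring_nf at h0 ⊢
    rw [cnt_congr hA 4 (m := q) (m' := q + j * 4) ⟨j, by ring⟩,
      cnt_congr hA 5 (m := q + j) (m' := q + j * 5) ⟨j, by ring⟩,
      cnt_congr hA 6 (m := q + j * 2) (m' := q + j * 6) ⟨j, by ring⟩,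
      cnt_congr hA 7 (m := q + j * 3) (m' := q + j * 7) ⟨j, by ring⟩]
    omega
  obtain ⟨α, key, hinj⟩ := choice hA (N := 8) (c := 2) (by norm_num) (by norm_num)
    (cnt_per hA hA.g2 good_gad2) hv (hs 2 (Or.inl rfl)) (hs 3 (Or.inr rfl))
  obtain ⟨r, hr⟩ := fin_double (α 0) (α 1) (hinj 0 1 (by decide)) (α 2) (hinj 0 2 (by decide))
    (hinj 1 2 (by decide)) (α 3) (hinj 0 3 (by decide)) (hinj 1 3 (by decide)) (hinj 2 3 (by decide))
  have hc := hal_count hA r.val
  have hd : ∀ r : Fin 8, (8 : ℤ) ∣ ((r.val : ℤ) - 2) - ((r - 2).val : ℤ) := by decide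
  rw [row_choice hA key _ r (by simp), row_choice hA key _ (r - 2) (hd r)] at hc
  apply hr
  rw [← Finset.sum_add_distrib] at hc
  have hsum : (∑ q : Fin 4, ((if α q = r then 2 else 0) + if α q = r - 2 then 2 else 0 : ℕ))
      = 2 * ∑ q : Fin 4, ((if ![α 0, α 1, α 2, α 3] q = r then 1 else 0)
        + if ![α 0, α 1, α 2, α 3] q = r - 2 then 1 else 0 : ℕ) := by
    rw [Finset.mul_sum]
    refine Finset.sum_congr rfl fun q _ => ?_
    have hq : ![α 0, α 1, α 2, α 3] q = α q := by fin_cases q <;> rfl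
    simp only [hq]
    split_ifs <;> rfl
  omega

theorem no_simple (hA : Sol A) (h : ∀ j, (j = 2 ∨ j = 3) → ∀ n m, W A j n m = 1) : False := by
  have hper : ∀ n m, cnt A (n + ((4 : ℕ) : ℤ)) m = cnt A n m := by
    intro n m
    have := window_shift hA 2 n m
    rw [h 2 (Or.inl rfl), h 2 (Or.inl rfl)] at this
    push_cast; omega
  have hv : ∀ n m, cnt A n m = 0 ∨ cnt A n m = 1 := by
    intro n m
    have h1 := h 2 (Or.inl rfl) n m
    simp only [W_eq, Fin.sum_univ_four] at h1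
    norm_num at h1
    omega
  have hs : ∀ j, (j = 2 ∨ j = 3) → ∀ q : ℤ, ∑ a : Fin 4, cnt A a.val (q + j * a.val) = 1 := by
    intro j hj q
    have h0 := h j hj 3 (q + 3 * j)
    simp only [W_eq, Fin.sum_univ_four] at h0 ⊢
    norm_num at h0 ⊢
    ring_nf at h0 ⊢
    omega
  obtain ⟨α, key, hinj⟩ := choice hA (N := 4) (c := 1) (by norm_num) (by norm_num)
    hper hv (hs 2 (Or.inl rfl)) (hs 3 (Or.inr rfl))
  have hd : ∀ r : Fin 4, (4 : ℤ) ∣ ((r.val : ℤ) - 2) - ((r - 2).val : ℤ) := by decide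
  have hα : ![α 0, α 1, α 2, α 3] = α := by
    funext q; fin_cases q <;> rfl
  have hfs := fin_simple (α 0) (α 1) (hinj 0 1 (by decide)) (α 2) (hinj 0 2 (by decide))
    (hinj 1 2 (by decide)) (α 3) (hinj 0 3 (by decide)) (hinj 1 3 (by decide)) (hinj 2 3 (by decide))
  rw [hα] at hfs
  obtain ⟨r, q, q', hne, hsupp, s, hbad⟩ := hfs fun r => by
    have hc := hal_count hA r.val
    rw [row_choice hA key _ r (by simp), row_choice hA key _ (r - 2) (hd r)] at hc
    rw [Finset.sum_add_distrib]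
    exact hc
  set X : Fin 4 → Fin 2 → ℂ := fun u i =>
    ee (-(i.val : ℝ) * dd / 4) * V A 1 ((r.val : ℤ) - 2 * i.val) (u.val + 2 * r.val) with hX
  have hai : ∀ (r : Fin 4) (i : Fin 2),
      (4 : ℤ) ∣ ((r.val : ℤ) - 2 * i.val) - ((if i = 0 then r else r - 2 : Fin 4).val : ℤ) := by decide
  have hX0 : ∀ u i, (X u i ≠ 0 ↔ α u = if i = 0 then r else r - 2) := by
    intro u i
    have hk := key ((r.val : ℤ) - 2 * i.val) (u.val + 2 * r.val) _ u (hai r i) ⟨i.val, by ring⟩
    simp only [hX, mul_ne_zero_iff]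
    by_cases h1 : α u = if i = 0 then r else r - 2
    · rw [if_pos h1] at hk
      obtain ⟨x, hx⟩ := Finset.card_eq_one.1 hk
      refine iff_of_true ⟨ee_ne_zero _, ?_⟩ h1
      simp only [V, hx, Finset.sum_singleton]
      exact ee_ne_zero _
    · rw [if_neg h1] at hk
      exact iff_of_false (fun hne => hne.2 (V_one_of_cnt hk 1)) h1
  have hrel : ∀ s : Fin 4, ∑ u : Fin 4, ∑ i : Fin 2, sg i (s - 2 * r - u) * X u i = 0 := by
    intro s
    have hm := mode_eq hA hA.g1 good_hal r.val s.val one_ne_zero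
    rw [sum_hal] at hm
    rw [Finset.sum_comm]
    have e : ∀ i : Fin 2, ∑ j : Fin 4,
        (ee ((1 : ℕ) * (sv (hp (i, j)).2.2.1 + sv (hp (i, j)).2.2.2)) - ee ((1 : ℕ) * sv (hp (i, j)).2.2.1))
          * V A 1 ((r.val : ℤ) - (hp (i, j)).1) ((s.val : ℤ) - (hp (i, j)).2.1)
        = -2 * ∑ u : Fin 4, sg i (s - 2 * r - u) * X u i := by
      intro i
      rw [Finset.mul_sum]
      refine (Fintype.sum_equiv (Equiv.subLeft (s - 2 * r)) _ _ fun u => ?_).symm
      simp only [Equiv.subLeft_apply, hX, hp]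
      have hmm : ∀ s r u : Fin 4,
          (4 : ℤ) ∣ ((s.val : ℤ) - ((s - 2 * r - u).val : ℤ)) - (u.val + 2 * r.val) := by decide
      rw [show V A 1 ((r.val : ℤ) - 2 * i.val) ((s.val : ℤ) - ((s - 2 * r - u).val : ℤ))
          = V A 1 ((r.val : ℤ) - 2 * i.val) (u.val + 2 * r.val) by
        simp only [V, pts_congr hA _ (hmm s r u)]]
      rcases bit_cases i (s - 2 * r - u) with hb | hb <;>
        simp only [sg, hb, sv, if_true, one_ne_zero, if_false, Nat.cast_one, one_mul] <;> push_cast <;>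
        simp only [zero_mul, zero_div, zero_add, add_zero, ee_add, ee_half, ee_zero]
      all_goals
        rw [show (-2 : ℝ) * (i.val : ℝ) * dd / 8 = -(i.val : ℝ) * dd / 4 by ring]
        ring
    simp only [e, ← Finset.mul_sum] at hm
    exact (mul_eq_zero.1 hm).resolve_left (by norm_num)
  have hpair : ∀ s : Fin 4, sg (lay (α q) r) (s - 2 * r - q) * X q (lay (α q) r)
      + sg (lay (α q') r) (s - 2 * r - q') * X q' (lay (α q') r) = 0 := by
    intro s
    have h0 := hrel s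
    have hz : ∀ u i, i ≠ lay (α u) r ∨ (u ≠ q ∧ u ≠ q') → X u i = 0 := by
      intro u i hui
      by_contra hx
      have hau := (hX0 u i).1 hx
      have hr2 : ∀ r : Fin 4, r - 2 ≠ r := by decide
      rcases hui with hi | ⟨hu, hu'⟩
      · apply hi
        fin_cases i <;> simp_all [lay]
      · have := (hsupp u).1 (by split_ifs at hau <;> tauto)
        tauto
    have h1 : ∀ u, ∑ i : Fin 2, sg i (s - 2 * r - u) * X u i
        = sg (lay (α u) r) (s - 2 * r - u) * X u (lay (α u) r) := fun u =>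
      Finset.sum_eq_single _ (fun i _ hi => by rw [hz u i (Or.inl hi), mul_zero]) (by simp)
    rw [Finset.sum_congr rfl fun u _ => h1 u,
      ← Finset.sum_subset (Finset.subset_univ {q, q'}) fun u _ hu => by
        simp only [Finset.mem_insert, Finset.mem_singleton, not_or] at hu
        rw [hz u _ (Or.inr hu), mul_zero], Finset.sum_pair hne] at h0
    exact h0
  have hxq : ∀ u, (α u = r ∨ α u = r - 2) → X u (lay (α u) r) ≠ 0 := by
    intro u hu
    refine (hX0 _ _).2 ?_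
    have hr2 : ∀ r : Fin 4, r - 2 ≠ r := by decide
    rcases hu with hu | hu <;> simp [lay, hu, hr2]
  have hx := hxq q ((hsupp q).2 (Or.inl rfl))
  have h0 := hpair 0
  have hs' := hpair s
  have hmain : sg (lay (α q) r) (s - 2 * r - q) * sg (lay (α q') r) (0 - 2 * r - q')
      = sg (lay (α q) r) (0 - 2 * r - q) * sg (lay (α q') r) (s - 2 * r - q') := by
    refine mul_right_cancel₀ hx ?_
    linear_combination sg (lay (α q') r) (0 - 2 * r - q') * hs' - sg (lay (α q') r) (s - 2 * r - q') * h0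
  apply hbad
  rcases bit_cases (lay (α q) r) (s - 2 * r - q) with a | a <;>
  rcases bit_cases (lay (α q') r) (s - 2 * r - q') with b | b <;>
  rcases bit_cases (lay (α q) r) (0 - 2 * r - q) with a' | a' <;>
  rcases bit_cases (lay (α q') r) (0 - 2 * r - q') with b' | b' <;>
  simp only [sg, a, b, a', b', if_true, one_ne_zero, if_false] at hmain ⊢ <;>
  first
    | done
    | (norm_num at hmain; done)
    | norm_num

/-- No solution of the system has a period with nonzero first component. -/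
theorem no_period (hA : Sol A) {M : ℤ} (hM : M ≠ 0) {τ : ℝ}
    (hP : ∀ n m y, (n + 8 * M, m, y + τ) ∈ A ↔ (n, m, y) ∈ A) : False := by
  have h2 := gad_types hA hA.g2 good_gad2 hM hP
  have h3 := gad_types hA hA.g3 good_gad3 hM hP
  by_cases hτ : ee (2 * τ) = 1
  · exact no_double hA (by rintro j (rfl | rfl) n m; exacts [(h2 n m).1 hτ, (h3 n m).1 hτ])
  · exact no_simple hA (by rintro j (rfl | rfl) n m; exacts [(h2 n m).2 hτ, (h3 n m).2 hτ])

end Vale.Agent.P043.R3
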